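import Vale.Agent.P146.H347.Mod2

/-!
Revealed sets of coordinates, their behaviour under permutations of the sites, the row of a hidden
site, exchangeability.

* `Kg SB SF G`: level `l` of the bonds inside `SB l`, level `l` of the fields of `SF l`, the
  modulated field on `G`; `Kset S BL FL`: bonds inside `S` with level in `BL`, fields of the sites
  of `S` with level in `FL`.
* `Rw i S BL FL`: the coordinates revealed when the site `i` is added to `S`.
* `InvP w`, `InvG w`: invariance of a weight under permutations / gauge transformations;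
  `Eq1 Ψ`, `Eq2 Ψ`: equivariance of a family indexed by sites / pairs of sites.
-/

open MeasureTheory ProbabilityTheory

namespace Vale.Agent.P146.H347

open Vale.Agent.P157.Lv Vale.Agent.P146.H196 Vale.Agent.P146.H646 Vale.Agent.P146.H475
  Vale.Agent.P146.H816 Vale.Agent.P146.H325

set_option linter.unusedSectionVars false

variable {n : ℕ} {LB LF : Type} [Fintype LB] [DecidableEq LB] [Fintype LF] [DecidableEq LF]

/-! ### revealed sets -/

/-- level `l` of the bonds inside `SB l`, level `l` of the fields of `SF l`, the modulated field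
on `G` -/
def Kg (SB : LB → Finset (Fin n)) (SF : LF → Finset (Fin n)) (G : Finset (Fin n)) :
    Finset (Co n LB LF) :=
  ((Finset.univ.filter fun e : Pair n × LB => e.1.1.1 ∈ SB e.2 ∧ e.1.1.2 ∈ SB e.2).disjSum
    (Finset.univ.filter fun e : Fin n × LF => e.1 ∈ SF e.2)).disjSum G

section Kg

variable {SB SB' : LB → Finset (Fin n)} {SF SF' : LF → Finset (Fin n)} {G G' : Finset (Fin n)}

lemma bd_mem (p : Pair n) (l : LB) :
    bd LF p l ∈ Kg SB SF G ↔ p.1.1 ∈ SB l ∧ p.1.2 ∈ SB l := by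
  simp [Kg]

lemma fd_mem (i : Fin n) (l : LF) : fd LB i l ∈ Kg SB SF G ↔ i ∈ SF l := by
  simp [Kg]

lemma gd_mem (i : Fin n) : gd LB LF i ∈ Kg SB SF G ↔ i ∈ G := by
  simp [Kg]

lemma Kg_mono (hB : ∀ l, SB l ⊆ SB' l) (hF : ∀ l, SF l ⊆ SF' l) (hG : G ⊆ G') :
    Kg SB SF G ⊆ Kg SB' SF' G' := by
  intro e he
  rcases e with (⟨p, l⟩ | ⟨i, l⟩) | j
  · rw [bd_mem] at he ⊢
    exact ⟨hB l he.1, hB l he.2⟩
  · rw [fd_mem] at he ⊢
    exact hF l he
  · rw [gd_mem] at he ⊢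
    exact hG he

lemma pf_mem (π : Equiv.Perm (Fin n)) {S S' : Finset (Fin n)} (h : ∀ i, π i ∈ S ↔ i ∈ S')
    (p : Pair n) : ((pf π p).1.1 ∈ S ∧ (pf π p).1.2 ∈ S) ↔ p.1.1 ∈ S' ∧ p.1.2 ∈ S' := by
  unfold pf
  split_ifs with h1
  · simp only [h]
  · simp only [h]
    exact and_comm

/-- equivariance of the revealed sets -/
theorem cP_mem (π : Equiv.Perm (Fin n)) (hB : ∀ l i, π i ∈ SB l ↔ i ∈ SB' l)
    (hF : ∀ l i, π i ∈ SF l ↔ i ∈ SF' l) (hG : ∀ i, π i ∈ G ↔ i ∈ G') (e : Co n LB LF) :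
    cP LB LF π e ∈ Kg SB SF G ↔ e ∈ Kg SB' SF' G' := by
  rcases e with (⟨p, l⟩ | ⟨i, l⟩) | j
  · rw [cP_bd, bd_mem, bd_mem]
    exact pf_mem π (hB l) p
  · rw [cP_fd, fd_mem, fd_mem]
    exact hF l i
  · rw [cP_gd, gd_mem, gd_mem]
    exact hG j

/-- a permutation which fixes the revealed sites fixes the revealed coordinates -/
theorem cP_fix (π : Equiv.Perm (Fin n)) (hB : ∀ l, ∀ i ∈ SB l, π i = i)
    (hF : ∀ l, ∀ i ∈ SF l, π i = i) (hG : ∀ i ∈ G, π i = i) {e : Co n LB LF}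
    (he : e ∈ Kg SB SF G) : cP LB LF π e = e := by
  rcases e with (⟨p, l⟩ | ⟨i, l⟩) | j
  · rw [bd_mem] at he
    rw [cP_bd]
    have h1 := hB l _ he.1
    have h2 := hB l _ he.2
    have h3 : pf π p = p := by
      unfold pf
      simp only [h1, h2]
      rw [dif_pos p.2]
    rw [h3]
  · rw [fd_mem] at he
    rw [cP_fd, hF l i he]
  · rw [gd_mem] at he
    rw [cP_gd, hG j he]

/-- the signs of the revealed coordinates -/
theorem eps_eq_one (τ : Xs n) (hB : ∀ l, ∀ i ∈ SB l, τ i = 1) (hF : ∀ l, ∀ i ∈ SF l, τ i = 1)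
    (hG : ∀ i ∈ G, τ i = 1) {e : Co n LB LF} (he : e ∈ Kg SB SF G) : eps LB LF τ e = 1 := by
  rcases e with (⟨p, l⟩ | ⟨i, l⟩) | j
  · rw [bd_mem] at he
    rw [eps_bd]
    unfold SkS sp
    rw [hB l _ he.1, hB l _ he.2]
    simp
  · rw [fd_mem] at he
    rw [eps_fd]
    unfold sp
    rw [hF l i he]
    simp
  · rw [gd_mem] at he
    rw [eps_gd]
    unfold sp
    rw [hG j he]
    simp

end Kg

/-- the bonds inside `S` with level in `BL` and the fields of the sites of `S` with level in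
`FL` -/
def Kset (S : Finset (Fin n)) (BL : Finset LB) (FL : Finset LF) : Finset (Co n LB LF) :=
  Kg (fun l => if l ∈ BL then S else ∅) (fun l => if l ∈ FL then S else ∅) ∅

section Kset

variable {S S' : Finset (Fin n)} {BL BL' : Finset LB} {FL FL' : Finset LF}

lemma bd_memK (p : Pair n) (l : LB) :
    bd LF p l ∈ Kset S BL FL ↔ (p.1.1 ∈ S ∧ p.1.2 ∈ S) ∧ l ∈ BL := by
  unfold Kset
  rw [bd_mem]
  split_ifs with h <;> simp [h]

lemma fd_memK (i : Fin n) (l : LF) : fd LB i l ∈ Kset S BL FL ↔ i ∈ S ∧ l ∈ FL := by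
  unfold Kset
  rw [fd_mem]
  split_ifs with h <;> simp [h]

lemma gd_memK (i : Fin n) : gd LB LF i ∉ Kset S BL FL := by
  unfold Kset
  rw [gd_mem]
  simp

lemma Kset_mono (hS : S ⊆ S') (hB : BL ⊆ BL') (hF : FL ⊆ FL') :
    Kset S BL FL ⊆ Kset S' BL' FL' := by
  intro e he
  rcases e with (⟨p, l⟩ | ⟨i, l⟩) | j
  · rw [bd_memK] at he ⊢
    exact ⟨⟨hS he.1.1, hS he.1.2⟩, hB he.2⟩
  · rw [fd_memK] at he ⊢
    exact ⟨hS he.1, hF he.2⟩
  · exact absurd he (gd_memK j)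

theorem cP_memK (π : Equiv.Perm (Fin n)) (h : ∀ i, π i ∈ S ↔ i ∈ S') (e : Co n LB LF) :
    cP LB LF π e ∈ Kset S BL FL ↔ e ∈ Kset S' BL FL := by
  rcases e with (⟨p, l⟩ | ⟨i, l⟩) | j
  · rw [cP_bd, bd_memK, bd_memK, pf_mem π h]
  · rw [cP_fd, fd_memK, fd_memK, h]
  · rw [cP_gd]
    exact iff_of_false (gd_memK _) (gd_memK _)

theorem cP_fixK (π : Equiv.Perm (Fin n)) (h : ∀ i ∈ S, π i = i) {e : Co n LB LF}
    (he : e ∈ Kset S BL FL) : cP LB LF π e = e := by
  refine cP_fix π (fun l i hi => ?_) (fun l i hi => ?_) (fun i hi => ?_) he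
  · split_ifs at hi with h1
    · exact h i hi
    · simp at hi
  · split_ifs at hi with h1
    · exact h i hi
    · simp at hi
  · simp at hi

theorem eps_eq_oneK (τ : Xs n) (h : ∀ i ∈ S, τ i = 1) {e : Co n LB LF}
    (he : e ∈ Kset S BL FL) : eps LB LF τ e = 1 := by
  refine eps_eq_one τ (fun l i hi => ?_) (fun l i hi => ?_) (fun i hi => ?_) he
  · split_ifs at hi with h1
    · exact h i hi
    · simp at hi
  · split_ifs at hi with h1
    · exact h i hi
    · simp at hi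
  · simp at hi

/-- with no revealed field, a global sign is invisible -/
theorem eps_globalK (S : Finset (Fin n)) (BL : Finset LB) {e : Co n LB LF}
    (he : e ∈ Kset S BL (∅ : Finset LF)) : eps LB LF (fun _ => -1) e = 1 := by
  rcases e with (⟨p, l⟩ | ⟨i, l⟩) | j
  · rw [eps_bd]
    unfold SkS sp
    simp
  · rw [fd_memK] at he
    simp at he
  · exact absurd he (gd_memK j)

end Kset

/-! ### swaps -/

lemma swap_mem {i j : Fin n} {S : Finset (Fin n)} (h : i ∈ S ↔ j ∈ S) (a : Fin n) :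
    Equiv.swap i j a ∈ S ↔ a ∈ S := by
  rw [Equiv.swap_apply_def]
  split_ifs with h1 h2
  · rw [h1]; exact h.symm
  · rw [h2]; exact h
  · rfl

lemma swap_fix {i j : Fin n} {S : Finset (Fin n)} (hi : i ∉ S) (hj : j ∉ S) {a : Fin n}
    (ha : a ∈ S) : Equiv.swap i j a = a :=
  Equiv.swap_apply_of_ne_of_ne (fun h => hi (h ▸ ha)) (fun h => hj (h ▸ ha))

lemma swap_insert {i j : Fin n} {S : Finset (Fin n)} (hi : i ∉ S) (hj : j ∉ S) (a : Fin n) :
    Equiv.swap i j a ∈ insert i S ↔ a ∈ insert j S := by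
  rw [Equiv.swap_apply_def]
  split_ifs with h1 h2
  · subst h1
    simp only [Finset.mem_insert, hi, hj, or_false]
    exact eq_comm
  · subst h2
    simp
  · simp [h1, h2]

/-! ### the row of a hidden site -/

/-- the bonds of `i` with a site of `S`, level in `BL`, and the fields of `i` with level in `FL` -/
def Rw (i : Fin n) (S : Finset (Fin n)) (BL : Finset LB) (FL : Finset LF) :
    Finset (Co n LB LF) :=
  ((((row i).filter fun p => oth i p ∈ S) ×ˢ BL).disjSum ({i} ×ˢ FL)).disjSum ∅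

section Rw

variable {i : Fin n} {S : Finset (Fin n)} {BL : Finset LB} {FL : Finset LF}

lemma bd_memR (p : Pair n) (l : LB) :
    bd LF p l ∈ Rw i S BL FL ↔ (p ∈ row i ∧ oth i p ∈ S) ∧ l ∈ BL := by
  simp [Rw]

lemma fd_memR (j : Fin n) (l : LF) : fd LB j l ∈ Rw i S BL FL ↔ j = i ∧ l ∈ FL := by
  simp [Rw, and_comm, eq_comm]

lemma gd_memR (j : Fin n) : gd LB LF j ∉ Rw i S BL FL := by
  simp [Rw]

/-- the row is what is revealed when the site `i` is added -/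
theorem Rw_eq (hi : i ∉ S) : Rw (LB := LB) (LF := LF) i S BL FL =
    Kset (insert i S) BL FL \ Kset S BL FL := by
  ext e
  rcases e with (⟨p, l⟩ | ⟨j, l⟩) | j
  · rw [Finset.mem_sdiff, bd_memR, bd_memK, bd_memK, mem_row]
    have h0 := p.2
    unfold oth
    constructor
    · rintro ⟨⟨h1, h2⟩, h3⟩
      refine ⟨⟨?_, h3⟩, ?_⟩
      · split_ifs at h2 with h4
        · exact ⟨by rw [h4]; exact Finset.mem_insert_self _ _, Finset.mem_insert_of_mem h2⟩
        · have h5 := h1.resolve_left h4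
          exact ⟨Finset.mem_insert_of_mem h2, by rw [h5]; exact Finset.mem_insert_self _ _⟩
      · rintro ⟨⟨h4, h5⟩, -⟩
        rcases h1 with h1 | h1
        · exact hi (h1 ▸ h4)
        · exact hi (h1 ▸ h5)
    · rintro ⟨⟨⟨h1, h2⟩, h3⟩, h4⟩
      rw [Finset.mem_insert] at h1 h2
      refine ⟨?_, h3⟩
      rcases h1 with h1 | h1
      · refine ⟨Or.inl h1, ?_⟩
        rw [if_pos h1]
        rcases h2 with h2 | h2
        · exact absurd (h1.trans h2.symm) h0.ne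
        · exact h2
      · have h5 : p.1.1 ≠ i := fun h => hi (h ▸ h1)
        rcases h2 with h2 | h2
        · refine ⟨Or.inr h2, ?_⟩
          rw [if_neg h5]
          exact h1
        · exact absurd ⟨⟨h1, h2⟩, h3⟩ h4
  · rw [Finset.mem_sdiff, fd_memR, fd_memK, fd_memK, Finset.mem_insert]
    constructor
    · rintro ⟨rfl, h⟩
      exact ⟨⟨Or.inl rfl, h⟩, fun h' => hi h'.1⟩
    · rintro ⟨⟨h1 | h1, h⟩, h2⟩
      · exact ⟨h1, h⟩
      · exact absurd ⟨h1, h⟩ h2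
  · rw [Finset.mem_sdiff]
    exact iff_of_false (gd_memR j) (fun h => gd_memK j h.1)

lemma Rw_disj (hi : i ∉ S) : Disjoint (Kset (LB := LB) (LF := LF) S BL FL) (Rw i S BL FL) := by
  rw [Rw_eq hi]
  exact Finset.disjoint_sdiff

lemma Rw_union (hi : i ∉ S) : Kset (LB := LB) (LF := LF) S BL FL ∪ Rw i S BL FL =
    Kset (insert i S) BL FL := by
  rw [Rw_eq hi]
  exact Finset.union_sdiff_of_subset
    (Kset_mono (Finset.subset_insert i S) (Finset.Subset.refl _) (Finset.Subset.refl _))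

/-- sums over the row -/
theorem sum_Rw (f : Co n LB LF → ℝ) : ∑ e ∈ Rw i S BL FL, f e =
    ∑ p ∈ (row i).filter (fun p => oth i p ∈ S), ∑ l ∈ BL, f (bd LF p l) +
      ∑ l ∈ FL, f (fd LB i l) := by
  unfold Rw
  rw [Finset.sum_disjSum, Finset.sum_disjSum, Finset.sum_product, Finset.sum_product,
    Finset.sum_empty, add_zero, Finset.sum_singleton]

lemma sum_row_mem (i : Fin n) (S : Finset (Fin n)) (hi : i ∉ S) (G : Fin n → ℝ) :
    ∑ p ∈ (row i).filter (fun p => oth i p ∈ S), G (oth i p) = ∑ j ∈ S, G j := by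
  rw [Finset.sum_filter, sum_row i (fun j => if j ∈ S then G j else 0)]
  rw [← Finset.sum_filter]
  congr 1
  ext j
  simp only [Finset.mem_filter, Finset.mem_erase, Finset.mem_univ, and_true]
  constructor
  · exact fun h => h.2
  · exact fun h => ⟨fun h' => hi (h' ▸ h), h⟩

/-- sums over the row, bonds indexed by the other end -/
theorem sum_Rw' (hi : i ∉ S) (f : Co n LB LF → ℝ) (G : Fin n → LB → ℝ)
    (h : ∀ p ∈ row i, oth i p ∈ S → ∀ l ∈ BL, f (bd LF p l) = G (oth i p) l) :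
    ∑ e ∈ Rw i S BL FL, f e = ∑ j ∈ S, ∑ l ∈ BL, G j l + ∑ l ∈ FL, f (fd LB i l) := by
  rw [sum_Rw, ← sum_row_mem i S hi]
  congr 1
  refine Finset.sum_congr rfl fun p hp => ?_
  rw [Finset.mem_filter] at hp
  exact Finset.sum_congr rfl fun l hl => h p hp.1 hp.2 l hl

end Rw

/-! ### the energies of the row -/

section En

variable (b : ℝ) (cB : LB → ℝ) (cF : LF → ℝ) (s η : ℝ)

lemma Sm_bd {i : Fin n} {p : Pair n} (hp : p ∈ row i) (l : LB) (w : ℝ × Xs n) :
    Sm b cB cF s η (bd LF p l) w = b / √n * cB l * (sp w.2 i * sp w.2 (oth i p)) := by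
  show b / √n * cB l * SkS p w.2 = _
  rw [SkS_oth hp]
  rfl

lemma Sm_fd (i : Fin n) (l : LF) (w : ℝ × Xs n) :
    Sm b cB cF s η (fd LB i l) w = cF l * sp w.2 i := rfl

lemma Sm_gd (i : Fin n) (w : ℝ × Xs n) :
    Sm b cB cF s η (gd LB LF i) w = al η w.1 * s * sp w.2 i := rfl

lemma div_sqrt_sq (b : ℝ) (n : ℕ) : b / √n * (b / √n) = b ^ 2 / n := by
  rw [div_mul_div_comm, Real.mul_self_sqrt (Nat.cast_nonneg n), sq]

/-- the covariance of the row energies of two configurations -/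
theorem sum_Rw_Sm {i : Fin n} {S : Finset (Fin n)} (hi : i ∉ S) (BL : Finset LB)
    (FL : Finset LF) (w w' : ℝ × Xs n) :
    ∑ e ∈ Rw i S BL FL, Sm b cB cF s η e w * Sm b cB cF s η e w' =
      sp w.2 i * sp w'.2 i * (b ^ 2 / n * (∑ l ∈ BL, cB l ^ 2) * ∑ j ∈ S, sp w.2 j * sp w'.2 j +
        ∑ l ∈ FL, cF l ^ 2) := by
  rw [sum_Rw' hi _ (fun j l => sp w.2 i * sp w'.2 i * (b ^ 2 / n * cB l ^ 2 *
    (sp w.2 j * sp w'.2 j)))]
  · rw [mul_add]
    congr 1
    · rw [Finset.mul_sum, Finset.mul_sum]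
      refine Finset.sum_congr rfl fun j _ => ?_
      rw [Finset.mul_sum, Finset.sum_mul, Finset.mul_sum]
    · rw [Finset.mul_sum]
      refine Finset.sum_congr rfl fun l _ => ?_
      rw [Sm_fd, Sm_fd]
      ring
  · intro p hp _ l _
    rw [Sm_bd b cB cF s η hp, Sm_bd b cB cF s η hp, ← div_sqrt_sq]
    ring

/-- the variance of the row energy of one configuration -/
theorem sum_Rw_sq {i : Fin n} {S : Finset (Fin n)} (hi : i ∉ S) (BL : Finset LB)
    (FL : Finset LF) (w : ℝ × Xs n) :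
    ∑ e ∈ Rw i S BL FL, Sm b cB cF s η e w ^ 2 =
      b ^ 2 / n * (∑ l ∈ BL, cB l ^ 2) * S.card + ∑ l ∈ FL, cF l ^ 2 := by
  have h := sum_Rw_Sm b cB cF s η hi BL FL w w
  simp only [sp_mul_self, one_mul, Finset.sum_const, nsmul_eq_mul, mul_one] at h
  rw [← h]
  exact Finset.sum_congr rfl fun e _ => sq _

end En

/-! ### invariance and exchangeability -/

/-- invariance of a weight (or of an observable) under all the permutations of the sites -/
def InvP (w : (Co n LB LF → ℝ) → ℝ) : Prop := ∀ π z, w (acP π z) = w z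

/-- invariance under the gauge transformations -/
def InvG (w : (Co n LB LF → ℝ) → ℝ) : Prop := ∀ τ z, w (ac 1 (eps LB LF τ) z) = w z

/-- a family indexed by the sites, equivariant under permutations -/
def Eq1 (Ψ : Fin n → (Co n LB LF → ℝ) → ℝ) : Prop := ∀ π j z, Ψ j (acP π z) = Ψ (π j) z

/-- a family indexed by pairs of sites, equivariant under permutations -/
def Eq2 (Ψ : Fin n → Fin n → (Co n LB LF → ℝ) → ℝ) : Prop :=
  ∀ π i j z, Ψ i j (acP π z) = Ψ (π i) (π j) z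

section inv

variable {w : (Co n LB LF → ℝ) → ℝ} {K K' : Finset (Co n LB LF)} {π : Equiv.Perm (Fin n)}

/-- equivariance of the conditional means -/
theorem cx_P (hw : InvP w) (hK : ∀ e, cP LB LF π e ∈ K ↔ e ∈ K') (Ψ : (Co n LB LF → ℝ) → ℝ)
    (z : Co n LB LF → ℝ) :
    cx (g1 _) K' w Ψ (acP π z) = cx (g1 _) K w (fun z => Ψ (acP π z)) z :=
  (cx_ac (cP LB LF π) (fun _ => one_mul 1) (fun z => hw π z) hK Ψ z).symm

theorem ex_P (hw : InvP w) (π : Equiv.Perm (Fin n)) (Ψ : (Co n LB LF → ℝ) → ℝ) :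
    ex (g1 _) w (fun z => Ψ (acP π z)) = ex (g1 _) w Ψ :=
  ex_ac (cP LB LF π) (fun _ => one_mul 1) (fun z => hw π z) Ψ

/-- a permutation which fixes the revealed coordinates does not change the conditional means -/
theorem cx_P_fix (hw : InvP w) (hK : ∀ e ∈ K, cP LB LF π e = e) (Ψ : (Co n LB LF → ℝ) → ℝ)
    (z : Co n LB LF → ℝ) :
    cx (g1 _) K w (fun z => Ψ (acP π z)) z = cx (g1 _) K w Ψ z := by
  have h1 : ∀ e, cP LB LF π e ∈ K ↔ e ∈ K := by
    intro e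
    constructor
    · intro h
      have h2 := hK _ h
      have h3 : cP LB LF π e = e := (cP LB LF π).injective h2
      rwa [h3] at h
    · intro h
      rw [hK e h]
      exact h
  rw [← cx_P hw h1]
  refine Dep.congr (dep_cx K) fun e he => ?_
  rw [acP_apply, hK e he]

/-- conditional means of an equivariant family -/
theorem Eq1.cx (hw : InvP w) {Ψ : Fin n → (Co n LB LF → ℝ) → ℝ} (hΨ : Eq1 Ψ)
    (hK : ∀ e, cP LB LF π e ∈ K ↔ e ∈ K') (j : Fin n) (z : Co n LB LF → ℝ) :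
    H646.cx (g1 _) K' w (Ψ j) (acP π z) = H646.cx (g1 _) K w (Ψ (π j)) z := by
  rw [cx_P hw hK]
  congr 1
  funext z
  exact hΨ π j z

theorem Eq2.cx (hw : InvP w) {Ψ : Fin n → Fin n → (Co n LB LF → ℝ) → ℝ} (hΨ : Eq2 Ψ)
    (hK : ∀ e, cP LB LF π e ∈ K ↔ e ∈ K') (i j : Fin n) (z : Co n LB LF → ℝ) :
    H646.cx (g1 _) K' w (Ψ i j) (acP π z) = H646.cx (g1 _) K w (Ψ (π i) (π j)) z := by
  rw [cx_P hw hK]
  congr 1
  funext z
  exact hΨ π i j z

/-- two hidden sites: the conditional means agree -/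
theorem Eq1.cx_fix (hw : InvP w) {Ψ : Fin n → (Co n LB LF → ℝ) → ℝ} (hΨ : Eq1 Ψ)
    (hK : ∀ e ∈ K, cP LB LF π e = e) (j : Fin n) (z : Co n LB LF → ℝ) :
    H646.cx (g1 _) K w (Ψ (π j)) z = H646.cx (g1 _) K w (Ψ j) z := by
  rw [← cx_P_fix hw hK (Ψ j)]
  congr 1
  funext z
  exact (hΨ π j z).symm

theorem Eq2.cx_fix (hw : InvP w) {Ψ : Fin n → Fin n → (Co n LB LF → ℝ) → ℝ} (hΨ : Eq2 Ψ)
    (hK : ∀ e ∈ K, cP LB LF π e = e) (i j : Fin n) (z : Co n LB LF → ℝ) :
    H646.cx (g1 _) K w (Ψ (π i) (π j)) z = H646.cx (g1 _) K w (Ψ i j) z := by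
  rw [← cx_P_fix hw hK (Ψ i j)]
  congr 1
  funext z
  exact (hΨ π i j z).symm

variable {S : Finset (Fin n)} {BL : Finset LB} {FL : Finset LF}

/-- two hidden sites of the block form -/
theorem Eq1.cx_hid (hw : InvP w) {Ψ : Fin n → (Co n LB LF → ℝ) → ℝ} (hΨ : Eq1 Ψ) {i i' : Fin n}
    (hi : i ∉ S) (hi' : i' ∉ S) (z : Co n LB LF → ℝ) :
    H646.cx (g1 _) (Kset S BL FL) w (Ψ i') z = H646.cx (g1 _) (Kset S BL FL) w (Ψ i) z := by
  have h := hΨ.cx_fix hw (K := Kset S BL FL) (π := Equiv.swap i i')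
    (fun e he => cP_fixK _ (fun a ha => swap_fix hi hi' ha) he) i z
  rwa [Equiv.swap_apply_left] at h

/-- two hidden sites, families indexed by pairs -/
theorem Eq2.cx_hid (hw : InvP w) {Ψ : Fin n → Fin n → (Co n LB LF → ℝ) → ℝ} (hΨ : Eq2 Ψ)
    {i i' : Fin n} (hi : i ∉ S) (hi' : i' ∉ S) {j : Fin n} (hj : j ∈ S)
    (z : Co n LB LF → ℝ) :
    H646.cx (g1 _) (Kset S BL FL) w (Ψ i' j) z = H646.cx (g1 _) (Kset S BL FL) w (Ψ i j) z := by
  have h := hΨ.cx_fix hw (K := Kset S BL FL) (π := Equiv.swap i i')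
    (fun e he => cP_fixK _ (fun a ha => swap_fix hi hi' ha) he) i j z
  rwa [Equiv.swap_apply_left, swap_fix hi hi' hj] at h

/-- the conditional means given `Kset S`, for sites of `S`, under a permutation of `S` -/
theorem Eq1.cx_in (hw : InvP w) {Ψ : Fin n → (Co n LB LF → ℝ) → ℝ} (hΨ : Eq1 Ψ)
    (h : ∀ a, π a ∈ S ↔ a ∈ S) (j : Fin n) (z : Co n LB LF → ℝ) :
    H646.cx (g1 _) (Kset S BL FL) w (Ψ j) (acP π z) =
      H646.cx (g1 _) (Kset S BL FL) w (Ψ (π j)) z :=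
  hΨ.cx hw (cP_memK π h) j z

/-- sums over a `π`-stable set of sites -/
lemma sum_stable (h : ∀ a, π a ∈ S ↔ a ∈ S) (G : Fin n → ℝ) :
    ∑ j ∈ S, G (π j) = ∑ j ∈ S, G j :=
  Finset.sum_equiv π (fun a => (h a).symm) fun _ _ => rfl

/-- **Exchangeability of the revealed sites**: `H` invariant under the swap, `N` equivariant. -/
theorem exch (hw : InvP w) {H : (Co n LB LF → ℝ) → ℝ} {N : Fin n → (Co n LB LF → ℝ) → ℝ}
    {i j : Fin n} (hH : ∀ z, H (acP (Equiv.swap i j) z) = H z)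
    (hN : ∀ z, N i (acP (Equiv.swap i j) z) = N j z) :
    ex (g1 _) w (fun z => H z * N j z) = ex (g1 _) w (fun z => H z * N i z) := by
  rw [← ex_P hw (Equiv.swap i j) (fun z => H z * N i z)]
  congr 1
  funext z
  show H z * N j z = H (acP (Equiv.swap i j) z) * N i (acP (Equiv.swap i j) z)
  rw [hH, hN]

/-- the sum over the block of the squares of the conditional means is invariant -/
theorem Eq1.sum_inv (hw : InvP w) {Ψ : Fin n → (Co n LB LF → ℝ) → ℝ} (hΨ : Eq1 Ψ)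
    (h : ∀ a, π a ∈ S ↔ a ∈ S) (φ : ℝ → ℝ) (z : Co n LB LF → ℝ) :
    ∑ j ∈ S, φ (H646.cx (g1 _) (Kset S BL FL) w (Ψ j) (acP π z)) =
      ∑ j ∈ S, φ (H646.cx (g1 _) (Kset S BL FL) w (Ψ j) z) := by
  simp only [hΨ.cx_in hw h]
  exact sum_stable h fun j => φ (H646.cx (g1 _) (Kset S BL FL) w (Ψ j) z)

/-- **(I5)** for `i ∈ S` : the test function depends on the block sum only. -/
theorem Eq1.exch_block (hw : InvP w) (hwt : Wt (g1 _) w)
    {Ψ : Fin n → (Co n LB LF → ℝ) → ℝ} (hΨ : Eq1 Ψ) (hbm : ∀ j, BM (Ψ j)) {i : Fin n}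
    (hi : i ∈ S) {φ : ℝ → ℝ} (hφ : Measurable φ) {P0 : ℝ} (hP : ∀ y, |φ y| ≤ P0) (m : ℕ) :
    ex (g1 _) w (fun z => φ (∑ j ∈ S, H646.cx (g1 _) (Kset S BL FL) w (Ψ j) z ^ 2) *
        ∑ j ∈ S, H646.cx (g1 _) (Kset S BL FL) w (Ψ j) z ^ m) =
      S.card * ex (g1 _) w (fun z =>
        φ (∑ j ∈ S, H646.cx (g1 _) (Kset S BL FL) w (Ψ j) z ^ 2) *
          H646.cx (g1 _) (Kset S BL FL) w (Ψ i) z ^ m) := by
  set H : (Co n LB LF → ℝ) → ℝ :=
    fun z => φ (∑ j ∈ S, H646.cx (g1 _) (Kset S BL FL) w (Ψ j) z ^ 2) with hH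
  have hc : ∀ j, BM (H646.cx (g1 _) (Kset S BL FL) w (Ψ j)) := fun j => hwt.bm_cx _ (hbm j)
  have hpow : ∀ (m : ℕ) j, BM (fun z => H646.cx (g1 _) (Kset S BL FL) w (Ψ j) z ^ m) := by
    intro m j
    obtain ⟨C, hC⟩ := (hc j).bd
    refine ⟨(hc j).meas.pow_const m, |C| ^ m, fun z => ?_⟩
    rw [abs_pow]
    exact pow_le_pow_left₀ (abs_nonneg _) ((hC z).trans (le_abs_self C)) m
  have hHb : BM H := by
    refine ⟨hφ.comp ?_, P0, fun z => hP _⟩
    exact (BM.sum S fun j _ => hpow 2 j).meas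
  have h1 : ∀ j ∈ S, ex (g1 _) w (fun z => H z * H646.cx (g1 _) (Kset S BL FL) w (Ψ j) z ^ m) =
      ex (g1 _) w (fun z => H z * H646.cx (g1 _) (Kset S BL FL) w (Ψ i) z ^ m) := by
    intro j hj
    have hsw : ∀ a, Equiv.swap i j a ∈ S ↔ a ∈ S := swap_mem (iff_of_true hi hj)
    refine exch hw (H := H)
      (N := fun j z => H646.cx (g1 _) (Kset S BL FL) w (Ψ j) z ^ m) (fun z => ?_) fun z => ?_
    · simp only [hH]
      rw [hΨ.sum_inv hw hsw (fun y => y ^ 2)]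
    · show H646.cx (g1 _) (Kset S BL FL) w (Ψ i) (acP (Equiv.swap i j) z) ^ m = _
      rw [hΨ.cx_in hw hsw, Equiv.swap_apply_left]
  have h2 : ex (g1 _) w (fun z => H z *
      ∑ j ∈ S, H646.cx (g1 _) (Kset S BL FL) w (Ψ j) z ^ m) =
      ∑ j ∈ S, ex (g1 _) w (fun z => H z * H646.cx (g1 _) (Kset S BL FL) w (Ψ j) z ^ m) := by
    unfold ex
    rw [← Finset.sum_div]
    congr 1
    rw [← integral_finsetSum _ fun j _ => hwt.int_mul (hHb.mul (hpow m j))]
    refine integral_congr_ae (Filter.Eventually.of_forall fun z => ?_)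
    simp only [Finset.mul_sum]
  rw [h2, Finset.sum_congr rfl h1, Finset.sum_const, nsmul_eq_mul]

/-! ### odd quantities -/

/-- an observable which is odd under a gauge transformation invisible on `K` has conditional mean
zero. -/
theorem cx_odd_G (hw : InvG w) (τ : Xs n) (hK : ∀ e ∈ K, eps LB LF τ e = 1)
    {Ψ : (Co n LB LF → ℝ) → ℝ} (hΨ : ∀ z, Ψ (ac 1 (eps LB LF τ) z) = -Ψ z)
    (z : Co n LB LF → ℝ) : cx (g1 _) K w Ψ z = 0 :=
  H347.cx_odd (eps_sq τ) hK (fun z => hw τ z) hΨ z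

/-- observables odd in a hidden site -/
theorem cx_odd_K (hw : InvG w) {i : Fin n} (hi : i ∉ S)
    {Ψ : (Co n LB LF → ℝ) → ℝ} (hΨ : ∀ z, Ψ (ac 1 (eps LB LF (fl i)) z) = -Ψ z)
    (z : Co n LB LF → ℝ) : cx (g1 _) (Kset S BL FL) w Ψ z = 0 := by
  refine cx_odd_G hw (fl i) (fun e he => eps_eq_oneK _ (fun a ha => ?_) he) hΨ z
  unfold fl
  rw [if_neg]
  exact fun h => hi (h ▸ ha)

end inv

end Vale.Agent.P146.H347
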