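import Vale.Agent.P146.H347.Mod5

/-!
The root law given a set `K` of revealed coordinates, as a finite probability on the spin
configurations; two-copy moments of the overlap; the second and fourth moments of the row.

* `E2 p F = ∑ σ, ∑ σ', p σ * p σ' * F σ σ'`, Cauchy–Schwarz, moments.
* `pz μ k S w cf K h z σ = cx K w ⟨h 1_{cf = σ}⟩`; `cx_fin : cx K w ⟨h f(cf)⟩ = ∑ σ, pz h σ * f σ`.
* `mo S r p = E2 p (ov S ^ r)`, `ov S σ σ' = ∑ j ∈ S, σ_j σ'_j`.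
* `r2_Rw`, `r4_Rw` : the sums over the row `Rw i S BL FL`.
-/

open MeasureTheory ProbabilityTheory

namespace Vale.Agent.P146.H347

open Vale.Agent.P157.Lv Vale.Agent.P146.H196 Vale.Agent.P146.H646 Vale.Agent.P146.H475
  Vale.Agent.P146.H816 Vale.Agent.P146.H325

set_option linter.unusedSectionVars false

/-! ### two copies of a finite law -/

section two

variable {X : Type} [Fintype X]

/-- the mean of two independent copies -/
noncomputable def E2 (p : X → ℝ) (F : X → X → ℝ) : ℝ := ∑ σ, ∑ σ', p σ * p σ' * F σ σ'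

variable {p : X → ℝ} {F G : X → X → ℝ}

lemma E2_add (p : X → ℝ) (F G : X → X → ℝ) :
    E2 p (fun σ σ' => F σ σ' + G σ σ') = E2 p F + E2 p G := by
  unfold E2
  simp only [mul_add, Finset.sum_add_distrib]

lemma E2_cmul (p : X → ℝ) (c : ℝ) (F : X → X → ℝ) :
    E2 p (fun σ σ' => c * F σ σ') = c * E2 p F := by
  unfold E2
  simp only [Finset.mul_sum]
  refine Finset.sum_congr rfl fun σ _ => Finset.sum_congr rfl fun σ' _ => ?_
  ring

lemma E2_one (h1 : ∑ σ, p σ = 1) : E2 p (fun _ _ => 1) = 1 := by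
  unfold E2
  simp only [mul_one]
  simp only [← Finset.mul_sum, h1, mul_one]

lemma E2_mono (h0 : ∀ σ, 0 ≤ p σ) (h : ∀ σ σ', F σ σ' ≤ G σ σ') : E2 p F ≤ E2 p G :=
  Finset.sum_le_sum fun σ _ => Finset.sum_le_sum fun σ' _ =>
    mul_le_mul_of_nonneg_left (h σ σ') (mul_nonneg (h0 σ) (h0 σ'))

lemma E2_nonneg (h0 : ∀ σ, 0 ≤ p σ) (h : ∀ σ σ', 0 ≤ F σ σ') : 0 ≤ E2 p F :=
  Finset.sum_nonneg fun σ _ => Finset.sum_nonneg fun σ' _ =>
    mul_nonneg (mul_nonneg (h0 σ) (h0 σ')) (h σ σ')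

/-- Cauchy–Schwarz -/
lemma E2_cs (h0 : ∀ σ, 0 ≤ p σ) (F G : X → X → ℝ) :
    E2 p (fun σ σ' => F σ σ' * G σ σ') ^ 2 ≤
      E2 p (fun σ σ' => F σ σ' ^ 2) * E2 p (fun σ σ' => G σ σ' ^ 2) := by
  have e : ∀ H : X → X → ℝ, E2 p H = ∑ q : X × X, p q.1 * p q.2 * H q.1 q.2 := by
    intro H
    unfold E2
    rw [Fintype.sum_prod_type]
  rw [e, e, e]
  have h := Finset.sum_mul_sq_le_sq_mul_sq (Finset.univ : Finset (X × X))
    (fun q => √(p q.1 * p q.2) * F q.1 q.2) (fun q => √(p q.1 * p q.2) * G q.1 q.2)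
  have hs : ∀ q : X × X, √(p q.1 * p q.2) * √(p q.1 * p q.2) = p q.1 * p q.2 := fun q =>
    Real.mul_self_sqrt (mul_nonneg (h0 _) (h0 _))
  have h1 : ∀ q : X × X, √(p q.1 * p q.2) * F q.1 q.2 * (√(p q.1 * p q.2) * G q.1 q.2) =
      p q.1 * p q.2 * (F q.1 q.2 * G q.1 q.2) := fun q => by
    linear_combination (F q.1 q.2 * G q.1 q.2) * hs q
  have h2 : ∀ (H : X → X → ℝ) (q : X × X), (√(p q.1 * p q.2) * H q.1 q.2) ^ 2 =
      p q.1 * p q.2 * H q.1 q.2 ^ 2 := fun H q => by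
    linear_combination (H q.1 q.2 ^ 2) * hs q
  simp only [h1, h2] at h
  exact h

/-- `(E |F|)^2 ≤ E F^2` -/
lemma E2_sq_le (h0 : ∀ σ, 0 ≤ p σ) (h1 : ∑ σ, p σ = 1) (F : X → X → ℝ) :
    E2 p F ^ 2 ≤ E2 p (fun σ σ' => F σ σ' ^ 2) := by
  have h := E2_cs h0 F (fun _ _ => 1)
  simp only [mul_one, one_pow, E2_one h1] at h
  exact h

lemma E2_abs_le (h0 : ∀ σ, 0 ≤ p σ) (h1 : ∑ σ, p σ = 1) (F : X → X → ℝ) :
    E2 p (fun σ σ' => |F σ σ'|) ≤ √(E2 p (fun σ σ' => F σ σ' ^ 2)) := by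
  have h := E2_sq_le h0 h1 (fun σ σ' => |F σ σ'|)
  simp only [sq_abs] at h
  exact Real.le_sqrt_of_sq_le h

/-- `E F^2 ≤ (E F^4)^(1/2)` -/
lemma E2_four (h0 : ∀ σ, 0 ≤ p σ) (h1 : ∑ σ, p σ = 1) (F : X → X → ℝ) :
    E2 p (fun σ σ' => F σ σ' ^ 2) ^ 2 ≤ E2 p (fun σ σ' => F σ σ' ^ 4) := by
  have h := E2_sq_le h0 h1 (fun σ σ' => F σ σ' ^ 2)
  simp only [← pow_mul] at h
  exact h

/-- `E |F|^3 ≤ (E F^2)^(1/2) (E F^4)^(1/2)` -/
lemma E2_three (h0 : ∀ σ, 0 ≤ p σ) (F : X → X → ℝ) :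
    E2 p (fun σ σ' => |F σ σ'| ^ 3) ^ 2 ≤
      E2 p (fun σ σ' => F σ σ' ^ 2) * E2 p (fun σ σ' => F σ σ' ^ 4) := by
  have h := E2_cs h0 (fun σ σ' => |F σ σ'|) (fun σ σ' => F σ σ' ^ 2)
  have e1 : ∀ σ σ', |F σ σ'| * F σ σ' ^ 2 = |F σ σ'| ^ 3 := fun σ σ' => by
    rw [← sq_abs]; ring
  simp only [e1, sq_abs, ← pow_mul] at h
  exact h

/-- squares of means are two-copy means -/
lemma sum_sq_mean {A : Type*} (s : Finset A) (q : X → ℝ) (a : A → X → ℝ) :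
    ∑ j ∈ s, (∑ σ, q σ * a j σ) ^ 2 = E2 q (fun σ σ' => ∑ j ∈ s, a j σ * a j σ') := by
  unfold E2
  have h1 : ∀ j, (∑ σ, q σ * a j σ) ^ 2 = ∑ σ, ∑ σ', q σ * q σ' * (a j σ * a j σ') := by
    intro j
    rw [sq, Finset.sum_mul_sum]
    refine Finset.sum_congr rfl fun σ _ => Finset.sum_congr rfl fun σ' _ => ?_
    ring
  simp only [h1]
  rw [Finset.sum_comm]
  refine Finset.sum_congr rfl fun σ _ => ?_
  rw [Finset.sum_comm]
  refine Finset.sum_congr rfl fun σ' _ => ?_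
  rw [Finset.mul_sum]

/-- a signed density bounded by `C p` -/
lemma sum_sq_le {A : Type*} (s : Finset A) {q : X → ℝ} {C : ℝ} (h0 : ∀ σ, 0 ≤ p σ)
    (h1 : ∑ σ, p σ = 1) (hC : 0 ≤ C) (hq : ∀ σ, |q σ| ≤ C * p σ) (a : A → X → ℝ) :
    ∑ j ∈ s, (∑ σ, q σ * a j σ) ^ 2 ≤
      C ^ 2 * √(E2 p (fun σ σ' => (∑ j ∈ s, a j σ * a j σ') ^ 2)) := by
  rw [sum_sq_mean]
  have h2 : E2 q (fun σ σ' => ∑ j ∈ s, a j σ * a j σ') ≤
      C ^ 2 * E2 p (fun σ σ' => |∑ j ∈ s, a j σ * a j σ'|) := by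
    unfold E2
    rw [Finset.mul_sum]
    refine Finset.sum_le_sum fun σ _ => ?_
    rw [Finset.mul_sum]
    refine Finset.sum_le_sum fun σ' _ => ?_
    refine (le_abs_self _).trans ?_
    rw [abs_mul, abs_mul, ← mul_assoc]
    refine mul_le_mul_of_nonneg_right ?_ (abs_nonneg _)
    calc |q σ| * |q σ'| ≤ C * p σ * (C * p σ') :=
          mul_le_mul (hq σ) (hq σ') (abs_nonneg _) (mul_nonneg hC (h0 σ))
      _ = C ^ 2 * (p σ * p σ') := by ring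
  exact h2.trans (mul_le_mul_of_nonneg_left (E2_abs_le h0 h1 _) (sq_nonneg C))

end two

/-! ### the root law -/

section root

variable {ι : Type} [Fintype ι] [DecidableEq ι] {Ω : Type} [MeasurableSpace Ω] {X : Type}
  [Fintype X] [DecidableEq X] [MeasurableSpace X] [DiscreteMeasurableSpace X]

/-- `h` on the configuration `σ` -/
def ind (cf : Ω → X) (h : Ω → ℝ) (σ : X) (ω : Ω) : ℝ := if cf ω = σ then h ω else 0

/-- the conditional mean of `h` on the configuration `σ` -/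
noncomputable def pz (μ : Measure Ω) (k : ℝ) (S : ι → Ω → ℝ) (w : (ι → ℝ) → ℝ) (cf : Ω → X)
    (K : Finset ι) (h : Ω → ℝ) (z : ι → ℝ) (σ : X) : ℝ :=
  cx (g1 ι) K w (avm μ k S (ind cf h σ)) z

variable {μ : Measure Ω} {S : ι → Ω → ℝ} {M0 : ℝ} {w : (ι → ℝ) → ℝ} {cf : Ω → X}
  {K : Finset ι} {h : Ω → ℝ}

lemma bm_ind (hc : Measurable cf) (hh : Bm h) (σ : X) : Bm (ind cf h σ) := by
  obtain ⟨C, hC, h1⟩ := hh.bd
  refine Bm.of (C := C) ?_ fun ω => ?_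
  · exact Measurable.ite (hc (MeasurableSet.of_discrete (s := {σ}))) hh.meas measurable_const
  · unfold ind
    split_ifs
    · exact h1 ω
    · rw [abs_zero]; exact hC

/-- means of functions of the configuration -/
theorem cx_fin (hG : GM μ S M0) (hw : Wt (g1 ι) w) (k : ℝ) (hc : Measurable cf) (hh : Bm h)
    (f : X → ℝ) (z : ι → ℝ) :
    cx (g1 ι) K w (avm μ k S (fun ω => h ω * f (cf ω))) z = ∑ σ, pz μ k S w cf K h z σ * f σ := by
  have e1 : (fun ω => h ω * f (cf ω)) = fun ω => ∑ σ, f σ * ind cf h σ ω := by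
    funext ω
    unfold ind
    simp only [mul_ite, mul_zero]
    rw [Finset.sum_ite_eq Finset.univ (cf ω) fun σ => f σ * h ω]
    simp [mul_comm]
  have e2 : avm μ k S (fun ω => h ω * f (cf ω)) =
      fun z => ∑ σ, f σ * avm μ k S (ind cf h σ) z := by
    funext u
    rw [e1, hG.av_sum k _ fun σ _ => (bm_ind hc hh σ).const_mul (f σ)]
    exact Finset.sum_congr rfl fun σ _ => H196.av_mul _ _ _ _ _ _
  rw [e2, H646.cx_sum hw Finset.univ fun σ _ =>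
    (BM.const (f σ)).mul (bm hG k (bm_ind hc hh σ))]
  refine Finset.sum_congr rfl fun σ _ => ?_
  rw [H646.cx_const_mul hw, mul_comm]
  rfl

lemma pz_nonneg (hG : GM μ S M0) (hw : Wt (g1 ι) w) (k : ℝ) (hc : Measurable cf) (hh : Bm h)
    (h0 : ∀ ω, 0 ≤ h ω) (z : ι → ℝ) (σ : X) : 0 ≤ pz μ k S w cf K h z σ := by
  have h1 := H646.cx_mono hw (K := K) (BM.const 0) (bm hG k (bm_ind hc hh σ))
    (fun u => hG.av_nonneg k (fun ω => by unfold ind; split_ifs; exacts [h0 ω, le_rfl]) u) z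
  have h2 : cx (g1 ι) K w (fun _ => (0 : ℝ)) z = 0 := by
    have := H646.cx_const_mul hw (K := K) (Ψ := fun _ => (1 : ℝ)) 0 z
    simpa using this
  rw [h2] at h1
  exact h1

/-- the root law given the coordinates in `K` -/
noncomputable def rt (μ : Measure Ω) (k : ℝ) (S : ι → Ω → ℝ) (w : (ι → ℝ) → ℝ) (cf : Ω → X)
    (K : Finset ι) (z : ι → ℝ) (σ : X) : ℝ := pz μ k S w cf K (fun _ => 1) z σ

lemma rt_nonneg (hG : GM μ S M0) (hw : Wt (g1 ι) w) (k : ℝ) (hc : Measurable cf) (z : ι → ℝ)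
    (σ : X) : 0 ≤ rt μ k S w cf K z σ :=
  pz_nonneg hG hw k hc (Bm.const 1) (fun _ => zero_le_one) z σ

/-- means of functions of the configuration under the root law -/
theorem cx_rt (hG : GM μ S M0) (hw : Wt (g1 ι) w) (k : ℝ) (hc : Measurable cf)
    (f : X → ℝ) (z : ι → ℝ) :
    cx (g1 ι) K w (avm μ k S (fun ω => f (cf ω))) z = ∑ σ, rt μ k S w cf K z σ * f σ := by
  have h := cx_fin (K := K) hG hw k hc (Bm.const 1) f z
  simp only [one_mul] at h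
  exact h

lemma rt_sum (hG : GM μ S M0) (hw : Wt (g1 ι) w) (k : ℝ) (hc : Measurable cf) (z : ι → ℝ) :
    ∑ σ, rt μ k S w cf K z σ = 1 := by
  have h := cx_rt (K := K) hG hw k hc (fun _ => 1) z
  simp only [mul_one] at h
  rw [← h]
  have e : avm μ k S (fun _ => (1 : ℝ)) = fun _ => 1 := by
    funext u
    exact hG.av_one k u
  rw [e]
  exact H646.cx_one hw z

/-- densities with respect to the root law -/
lemma abs_pz_le (hG : GM μ S M0) (hw : Wt (g1 ι) w) (k : ℝ) (hc : Measurable cf) (hh : Bm h)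
    {C : ℝ} (hC : ∀ ω, |h ω| ≤ C) (z : ι → ℝ) (σ : X) :
    |pz μ k S w cf K h z σ| ≤ C * rt μ k S w cf K z σ := by
  have b1 := bm hG k (bm_ind hc hh σ)
  have b2 := bm hG k (bm_ind hc (Bm.const 1) σ)
  have h1 : ∀ u, |avm μ k S (ind cf h σ) u| ≤ C * avm μ k S (ind cf (fun _ => 1) σ) u := by
    intro u
    rw [abs_le]
    have e2 : C * avm μ k S (ind cf (fun _ => 1) σ) u =
        avm μ k S (fun ω => C * ind cf (fun _ => 1) σ ω) u := (H196.av_mul _ _ _ _ _ _).symm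
    constructor
    · rw [e2, ← neg_one_mul, ← H196.av_mul]
      refine hG.av_mono k (((bm_ind hc (Bm.const 1) σ).const_mul C).const_mul (-1))
        (bm_ind hc hh σ) (fun ω => ?_) u
      unfold ind
      split_ifs
      · have := (abs_le.1 (hC ω)).1
        linarith
      · simp
    · rw [e2]
      refine hG.av_mono k (bm_ind hc hh σ) ((bm_ind hc (Bm.const 1) σ).const_mul C)
        (fun ω => ?_) u
      unfold ind
      split_ifs
      · have := (abs_le.1 (hC ω)).2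
        linarith
      · simp
  unfold rt pz
  rw [abs_le]
  constructor
  · have h2 := H646.cx_mono hw (K := K) ((BM.const (-C)).mul b2) b1 (fun u => by
      have := (abs_le.1 (h1 u)).1
      linarith) z
    rw [H646.cx_const_mul hw] at h2
    linarith
  · have h2 := H646.cx_mono hw (K := K) b1 ((BM.const C).mul b2) (fun u => (abs_le.1 (h1 u)).2) z
    rw [H646.cx_const_mul hw] at h2
    exact h2

end root

/-! ### overlaps -/

section ov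

variable {n : ℕ}

/-- the overlap on `S`, not normalised -/
noncomputable def ov (S : Finset (Fin n)) (σ σ' : Xs n) : ℝ := ∑ j ∈ S, sp σ j * sp σ' j

/-- the fourth power of a sum -/
lemma sum_four {A : Type*} (s : Finset A) (a : A → ℝ) :
    ∑ e ∈ s, ∑ f ∈ s, ∑ g ∈ s, ∑ h ∈ s, a e * a f * (a g * a h) = (∑ e ∈ s, a e) ^ 4 := by
  rw [show (4 : ℕ) = 2 + 2 by rfl, pow_add, sq]
  rw [Finset.sum_mul_sum, Finset.sum_mul]
  refine Finset.sum_congr rfl fun e _ => ?_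
  rw [Finset.sum_mul]
  refine Finset.sum_congr rfl fun f _ => ?_
  rw [Finset.mul_sum]
  refine Finset.sum_congr rfl fun g _ => ?_
  rw [Finset.mul_sum]

/-- two-copy moments of the overlap -/
noncomputable def mo (S : Finset (Fin n)) (r : ℕ) (p : Xs n → ℝ) : ℝ :=
  E2 p (fun σ σ' => ov S σ σ' ^ r)

lemma abs_ov_le (S : Finset (Fin n)) (σ σ' : Xs n) : |ov S σ σ'| ≤ S.card := by
  unfold ov
  refine (Finset.abs_sum_le_sum_abs _ _).trans ?_
  simp only [abs_mul, abs_sp, mul_one]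
  simp

lemma mo_one (S : Finset (Fin n)) (p : Xs n → ℝ) :
    ∑ j ∈ S, (∑ σ, p σ * sp σ j) ^ 2 = mo S 1 p := by
  rw [sum_sq_mean]
  unfold mo ov
  simp only [pow_one]

lemma mo_two (S : Finset (Fin n)) (p : Xs n → ℝ) :
    ∑ i ∈ S, ∑ j ∈ S, (∑ σ, p σ * (sp σ i * sp σ j)) ^ 2 = mo S 2 p := by
  have h := sum_sq_mean (S ×ˢ S) p (fun a σ => sp σ a.1 * sp σ a.2)
  rw [Finset.sum_product] at h
  rw [h]
  unfold mo ov
  congr 1
  funext σ σ'
  rw [sq, Finset.sum_mul_sum, Finset.sum_product]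
  refine Finset.sum_congr rfl fun i _ => Finset.sum_congr rfl fun j _ => ?_
  ring

lemma mo_four (S : Finset (Fin n)) (p : Xs n → ℝ) :
    ∑ i ∈ S, ∑ j ∈ S, ∑ k ∈ S, ∑ l ∈ S,
      (∑ σ, p σ * (sp σ i * sp σ j * sp σ k * sp σ l)) ^ 2 = mo S 4 p := by
  have h := sum_sq_mean (S ×ˢ (S ×ˢ (S ×ˢ S))) p
    (fun a σ => sp σ a.1 * sp σ a.2.1 * sp σ a.2.2.1 * sp σ a.2.2.2)
  simp only [Finset.sum_product] at h
  rw [h]
  unfold mo ov
  congr 1
  funext σ σ'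
  rw [← sum_four]
  refine Finset.sum_congr rfl fun i _ => Finset.sum_congr rfl fun j _ =>
    Finset.sum_congr rfl fun k _ => Finset.sum_congr rfl fun l _ => ?_
  ring

variable {S : Finset (Fin n)} {p : Xs n → ℝ}

lemma mo_two_nonneg (h0 : ∀ σ, 0 ≤ p σ) : 0 ≤ mo S 2 p :=
  E2_nonneg h0 fun _ _ => sq_nonneg _

lemma mo_four_nonneg (h0 : ∀ σ, 0 ≤ p σ) : 0 ≤ mo S 4 p :=
  E2_nonneg h0 fun _ _ => by positivity

lemma mo_one_sq_le (h0 : ∀ σ, 0 ≤ p σ) (h1 : ∑ σ, p σ = 1) : mo S 1 p ^ 2 ≤ mo S 2 p := by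
  have h := E2_sq_le h0 h1 (ov S)
  unfold mo
  simp only [pow_one]
  exact h

lemma mo_two_sq_le (h0 : ∀ σ, 0 ≤ p σ) (h1 : ∑ σ, p σ = 1) : mo S 2 p ^ 2 ≤ mo S 4 p :=
  E2_four h0 h1 (ov S)

lemma mo_three_le (h0 : ∀ σ, 0 ≤ p σ) :
    E2 p (fun σ σ' => |ov S σ σ'| ^ 3) ^ 2 ≤ mo S 2 p * mo S 4 p := E2_three h0 (ov S)

lemma mo_two_mono {S' : Finset (Fin n)} (hS : S ⊆ S') (p : Xs n → ℝ) : mo S 2 p ≤ mo S' 2 p := by
  rw [← mo_two, ← mo_two]
  refine (Finset.sum_le_sum fun i _ => Finset.sum_le_sum_of_subset_of_nonneg hS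
    fun _ _ _ => sq_nonneg _).trans ?_
  exact Finset.sum_le_sum_of_subset_of_nonneg hS fun i _ _ =>
    Finset.sum_nonneg fun _ _ => sq_nonneg _

/-- moments of `τ ov + v` -/
lemma E2_lin_two (h0 : ∀ σ, 0 ≤ p σ) (h1 : ∑ σ, p σ = 1) (τ v : ℝ) :
    E2 p (fun σ σ' => (τ * ov S σ σ' + v) ^ 2) ≤ 2 * τ ^ 2 * mo S 2 p + 2 * v ^ 2 := by
  have e : 2 * τ ^ 2 * mo S 2 p + 2 * v ^ 2 =
      E2 p (fun σ σ' => 2 * τ ^ 2 * ov S σ σ' ^ 2 + 2 * v ^ 2 * 1) := by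
    rw [E2_add, E2_cmul, E2_cmul, E2_one h1]
    unfold mo
    ring
  rw [e]
  refine E2_mono h0 fun σ σ' => ?_
  nlinarith [sq_nonneg (τ * ov S σ σ' - v)]

lemma E2_lin_four (h0 : ∀ σ, 0 ≤ p σ) (h1 : ∑ σ, p σ = 1) (τ v : ℝ) :
    E2 p (fun σ σ' => (τ * ov S σ σ' + v) ^ 4) ≤ 8 * τ ^ 4 * mo S 4 p + 8 * v ^ 4 := by
  have e : 8 * τ ^ 4 * mo S 4 p + 8 * v ^ 4 =
      E2 p (fun σ σ' => 8 * τ ^ 4 * ov S σ σ' ^ 4 + 8 * v ^ 4 * 1) := by
    rw [E2_add, E2_cmul, E2_cmul, E2_one h1]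
    unfold mo
    ring
  rw [e]
  refine E2_mono h0 fun σ σ' => ?_
  have h2 : (τ * ov S σ σ' + v) ^ 2 ≤ 2 * (τ * ov S σ σ') ^ 2 + 2 * v ^ 2 := by
    nlinarith [sq_nonneg (τ * ov S σ σ' - v)]
  have h3 : (τ * ov S σ σ' + v) ^ 4 = ((τ * ov S σ σ' + v) ^ 2) ^ 2 := by ring
  rw [h3]
  have h4 : ((τ * ov S σ σ' + v) ^ 2) ^ 2 ≤ (2 * (τ * ov S σ σ') ^ 2 + 2 * v ^ 2) ^ 2 :=
    pow_le_pow_left₀ (sq_nonneg _) h2 2
  refine h4.trans ?_
  nlinarith [sq_nonneg ((τ * ov S σ σ') ^ 2 - v ^ 2)]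

end ov

/-! ### the modulated SK system -/

section sk

variable {n : ℕ} {LB LF : Type} [Fintype LB] [DecidableEq LB] [Fintype LF] [DecidableEq LF]
variable (b : ℝ) (cB : LB → ℝ) (cF : LF → ℝ) (s : ℝ) {η lam : ℝ}

/-- the energies of the row as functions of the spins -/
noncomputable def Ro (b : ℝ) (cB : LB → ℝ) (cF : LF → ℝ) (e : Co n LB LF) (σ : Xs n) : ℝ :=
  Sm b cB cF 0 0 e (0, σ)

lemma Ro_eq {i : Fin n} {S : Finset (Fin n)} {BL : Finset LB} {FL : Finset LF}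
    {e : Co n LB LF} (he : e ∈ Rw i S BL FL) (w : ℝ × Xs n) :
    Sm b cB cF s η e w = Ro b cB cF e w.2 := by
  rcases e with (e | e) | e
  · rfl
  · rfl
  · exact absurd he (gd_memR e)

lemma sum_Ro {i : Fin n} {S : Finset (Fin n)} (hi : i ∉ S) (BL : Finset LB) (FL : Finset LF)
    (σ σ' : Xs n) :
    ∑ e ∈ Rw i S BL FL, Ro b cB cF e σ * Ro b cB cF e σ' =
      sp σ i * sp σ' i * (b ^ 2 / n * (∑ l ∈ BL, cB l ^ 2) * ov S σ σ' + ∑ l ∈ FL, cF l ^ 2) :=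
  sum_Rw_Sm b cB cF 0 0 hi BL FL (0, σ) (0, σ')

lemma sq_sp_mul (σ σ' : Xs n) (i : Fin n) : (sp σ i * sp σ' i) ^ 2 = 1 := by
  rw [mul_pow, sp_sq, sp_sq, one_mul]

/-- the law of the spins given the revealed coordinates -/
noncomputable abbrev rA (b : ℝ) (cB : LB → ℝ) (cF : LF → ℝ) (s η lam c x : ℝ)
    (K : Finset (Co n LB LF)) (z : Co n LB LF → ℝ) : Xs n → ℝ :=
  rt (muA (Xs n) lam η c) 1 (Sm b cB cF s η) (Zxm (muA (Xs n) lam η c) 1 (Sm b cB cF s η) x)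
    Prod.snd K z

variable (hl : 0 < lam) (hη : 0 ≤ η) (c x : ℝ)
include hl hη

lemma rA_nonneg (K : Finset (Co n LB LF)) (z : Co n LB LF → ℝ) (σ : Xs n) :
    0 ≤ rA b cB cF s η lam c x K z σ := by
  have := dmx n
  exact rt_nonneg (gmA b cB cF s hl hη c) (wtA b cB cF s hl hη c x) 1 measurable_snd z σ

lemma rA_sum (K : Finset (Co n LB LF)) (z : Co n LB LF → ℝ) :
    ∑ σ, rA b cB cF s η lam c x K z σ = 1 := by
  have := dmx n
  exact rt_sum (gmA b cB cF s hl hη c) (wtA b cB cF s hl hη c x) 1 measurable_snd z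

/-- conditional means of functions of the spins -/
theorem cx_rA (K : Finset (Co n LB LF)) (f : Xs n → ℝ) (z : Co n LB LF → ℝ) :
    cx (g1 _) K (Zxm (muA (Xs n) lam η c) 1 (Sm b cB cF s η) x)
      (avm (muA (Xs n) lam η c) 1 (Sm b cB cF s η) (fun w => f w.2)) z =
      ∑ σ, rA b cB cF s η lam c x K z σ * f σ := by
  have := dmx n
  exact cx_rt (gmA b cB cF s hl hη c) (wtA b cB cF s hl hη c x) 1 measurable_snd f z

/-- second moments: `CC` -/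
theorem mo_two_cx (K : Finset (Co n LB LF)) (S : Finset (Fin n)) (z : Co n LB LF → ℝ) :
    ∑ i ∈ S, ∑ j ∈ S, cx (g1 _) K (Zxm (muA (Xs n) lam η c) 1 (Sm b cB cF s η) x)
      (avm (muA (Xs n) lam η c) 1 (Sm b cB cF s η) (fun w => sp w.2 i * sp w.2 j)) z ^ 2 =
      mo S 2 (rA b cB cF s η lam c x K z) := by
  rw [← mo_two]
  refine Finset.sum_congr rfl fun i _ => Finset.sum_congr rfl fun j _ => ?_
  rw [cx_rA b cB cF s hl hη c x K (fun σ => sp σ i * sp σ j)]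

theorem mo_one_cx (K : Finset (Co n LB LF)) (S : Finset (Fin n)) (z : Co n LB LF → ℝ) :
    ∑ i ∈ S, cx (g1 _) K (Zxm (muA (Xs n) lam η c) 1 (Sm b cB cF s η) x)
      (avm (muA (Xs n) lam η c) 1 (Sm b cB cF s η) (fun w => sp w.2 i)) z ^ 2 =
      mo S 1 (rA b cB cF s η lam c x K z) := by
  rw [← mo_one]
  refine Finset.sum_congr rfl fun i _ => ?_
  rw [cx_rA b cB cF s hl hη c x K (fun σ => sp σ i)]

theorem mo_four_cx (K : Finset (Co n LB LF)) (S : Finset (Fin n)) (z : Co n LB LF → ℝ) :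
    ∑ i ∈ S, ∑ j ∈ S, ∑ k ∈ S, ∑ l ∈ S,
      cx (g1 _) K (Zxm (muA (Xs n) lam η c) 1 (Sm b cB cF s η) x)
      (avm (muA (Xs n) lam η c) 1 (Sm b cB cF s η)
        (fun w => sp w.2 i * sp w.2 j * sp w.2 k * sp w.2 l)) z ^ 2 =
      mo S 4 (rA b cB cF s η lam c x K z) := by
  rw [← mo_four]
  refine Finset.sum_congr rfl fun i _ => Finset.sum_congr rfl fun j _ =>
    Finset.sum_congr rfl fun k _ => Finset.sum_congr rfl fun l _ => ?_
  rw [cx_rA b cB cF s hl hη c x K (fun σ => sp σ i * sp σ j * sp σ k * sp σ l)]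

/-- **the second moment of the row**, any revealed set `K` -/
theorem r2_Rw (K : Finset (Co n LB LF)) {i : Fin n} {S : Finset (Fin n)} (hi : i ∉ S)
    (BL : Finset LB) (FL : Finset LF) (z : Co n LB LF → ℝ) :
    ∑ e ∈ Rw i S BL FL, ∑ f ∈ Rw i S BL FL,
      cx (g1 _) K (Zxm (muA (Xs n) lam η c) 1 (Sm b cB cF s η) x)
      (avm (muA (Xs n) lam η c) 1 (Sm b cB cF s η)
        (fun w => Sm b cB cF s η e w * Sm b cB cF s η f w)) z ^ 2 =
    E2 (rA b cB cF s η lam c x K z) (fun σ σ' =>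
      (b ^ 2 / n * (∑ l ∈ BL, cB l ^ 2) * ov S σ σ' + ∑ l ∈ FL, cF l ^ 2) ^ 2) := by
  have h1 : ∀ e ∈ Rw i S BL FL, ∀ f ∈ Rw i S BL FL,
      cx (g1 _) K (Zxm (muA (Xs n) lam η c) 1 (Sm b cB cF s η) x)
      (avm (muA (Xs n) lam η c) 1 (Sm b cB cF s η)
        (fun w => Sm b cB cF s η e w * Sm b cB cF s η f w)) z =
      ∑ σ, rA b cB cF s η lam c x K z σ * (Ro b cB cF e σ * Ro b cB cF f σ) := by
    intro e he f hf
    rw [← cx_rA b cB cF s hl hη c x K (fun σ => Ro b cB cF e σ * Ro b cB cF f σ)]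
    simp only [Ro_eq b cB cF s he, Ro_eq b cB cF s hf]
  rw [Finset.sum_congr rfl fun e he => Finset.sum_congr rfl fun f hf => by rw [h1 e he f hf]]
  have h2 := sum_sq_mean (Rw i S BL FL ×ˢ Rw i S BL FL) (rA b cB cF s η lam c x K z)
    (fun a σ => Ro b cB cF a.1 σ * Ro b cB cF a.2 σ)
  rw [Finset.sum_product] at h2
  rw [h2]
  congr 1
  funext σ σ'
  have h3 : ∑ a ∈ Rw i S BL FL ×ˢ Rw i S BL FL, Ro b cB cF a.1 σ * Ro b cB cF a.2 σ *
      (Ro b cB cF a.1 σ' * Ro b cB cF a.2 σ') =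
      (∑ e ∈ Rw i S BL FL, Ro b cB cF e σ * Ro b cB cF e σ') ^ 2 := by
    rw [sq, Finset.sum_mul_sum, Finset.sum_product]
    refine Finset.sum_congr rfl fun e _ => Finset.sum_congr rfl fun f _ => ?_
    ring
  rw [h3, sum_Ro b cB cF hi, mul_pow, sq_sp_mul, one_mul]

/-- **the fourth moment of the row**, any revealed set `K` -/
theorem r4_Rw (K : Finset (Co n LB LF)) {i : Fin n} {S : Finset (Fin n)} (hi : i ∉ S)
    (BL : Finset LB) (FL : Finset LF) (z : Co n LB LF → ℝ) :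
    ∑ e ∈ Rw i S BL FL, ∑ f ∈ Rw i S BL FL, ∑ g ∈ Rw i S BL FL, ∑ h ∈ Rw i S BL FL,
      cx (g1 _) K (Zxm (muA (Xs n) lam η c) 1 (Sm b cB cF s η) x)
      (avm (muA (Xs n) lam η c) 1 (Sm b cB cF s η)
        (fun w => Sm b cB cF s η e w * Sm b cB cF s η f w * Sm b cB cF s η g w *
          Sm b cB cF s η h w)) z ^ 2 =
    E2 (rA b cB cF s η lam c x K z) (fun σ σ' =>
      (b ^ 2 / n * (∑ l ∈ BL, cB l ^ 2) * ov S σ σ' + ∑ l ∈ FL, cF l ^ 2) ^ 4) := by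
  have h1 : ∀ e ∈ Rw i S BL FL, ∀ f ∈ Rw i S BL FL, ∀ g ∈ Rw i S BL FL,
      ∀ h ∈ Rw i S BL FL,
      cx (g1 _) K (Zxm (muA (Xs n) lam η c) 1 (Sm b cB cF s η) x)
      (avm (muA (Xs n) lam η c) 1 (Sm b cB cF s η)
        (fun w => Sm b cB cF s η e w * Sm b cB cF s η f w * Sm b cB cF s η g w *
          Sm b cB cF s η h w)) z =
      ∑ σ, rA b cB cF s η lam c x K z σ *
        (Ro b cB cF e σ * Ro b cB cF f σ * Ro b cB cF g σ * Ro b cB cF h σ) := by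
    intro e he f hf g hg h hh
    rw [← cx_rA b cB cF s hl hη c x K
      (fun σ => Ro b cB cF e σ * Ro b cB cF f σ * Ro b cB cF g σ * Ro b cB cF h σ)]
    simp only [Ro_eq b cB cF s he, Ro_eq b cB cF s hf, Ro_eq b cB cF s hg, Ro_eq b cB cF s hh]
  rw [Finset.sum_congr rfl fun e he => Finset.sum_congr rfl fun f hf =>
    Finset.sum_congr rfl fun g hg => Finset.sum_congr rfl fun h hh => by
      rw [h1 e he f hf g hg h hh]]
  have h2 := sum_sq_mean (Rw i S BL FL ×ˢ (Rw i S BL FL ×ˢ (Rw i S BL FL ×ˢ Rw i S BL FL)))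
    (rA b cB cF s η lam c x K z)
    (fun a σ => Ro b cB cF a.1 σ * Ro b cB cF a.2.1 σ * Ro b cB cF a.2.2.1 σ *
      Ro b cB cF a.2.2.2 σ)
  simp only [Finset.sum_product] at h2
  rw [h2]
  congr 1
  funext σ σ'
  have h3 : ∑ e ∈ Rw i S BL FL, ∑ f ∈ Rw i S BL FL, ∑ g ∈ Rw i S BL FL,
      ∑ h ∈ Rw i S BL FL, Ro b cB cF e σ * Ro b cB cF f σ * Ro b cB cF g σ *
        Ro b cB cF h σ * (Ro b cB cF e σ' * Ro b cB cF f σ' * Ro b cB cF g σ' *
        Ro b cB cF h σ') =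
      (∑ e ∈ Rw i S BL FL, Ro b cB cF e σ * Ro b cB cF e σ') ^ 4 := by
    rw [← sum_four]
    refine Finset.sum_congr rfl fun e _ => Finset.sum_congr rfl fun f _ =>
      Finset.sum_congr rfl fun g _ => Finset.sum_congr rfl fun h _ => ?_
    ring
  rw [h3, sum_Ro b cB cF hi, mul_pow]
  have h4 : (sp σ i * sp σ' i) ^ 4 = 1 := by
    rw [show (4 : ℕ) = 2 * 2 by rfl, pow_mul, sq_sp_mul, one_pow]
  rw [h4, one_mul]

/-- bound of the second moment of the row -/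
theorem r2_Rw_le (K : Finset (Co n LB LF)) {i : Fin n} {S : Finset (Fin n)} (hi : i ∉ S)
    (BL : Finset LB) (FL : Finset LF) (z : Co n LB LF → ℝ) :
    ∑ e ∈ Rw i S BL FL, ∑ f ∈ Rw i S BL FL,
      cx (g1 _) K (Zxm (muA (Xs n) lam η c) 1 (Sm b cB cF s η) x)
      (avm (muA (Xs n) lam η c) 1 (Sm b cB cF s η)
        (fun w => Sm b cB cF s η e w * Sm b cB cF s η f w)) z ^ 2 ≤
    2 * (b ^ 2 / n * (∑ l ∈ BL, cB l ^ 2)) ^ 2 * mo S 2 (rA b cB cF s η lam c x K z) +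
      2 * (∑ l ∈ FL, cF l ^ 2) ^ 2 := by
  rw [r2_Rw b cB cF s hl hη c x K hi BL FL z]
  exact E2_lin_two (rA_nonneg b cB cF s hl hη c x K z) (rA_sum b cB cF s hl hη c x K z) _ _

/-- bound of the fourth moment of the row -/
theorem r4_Rw_le (K : Finset (Co n LB LF)) {i : Fin n} {S : Finset (Fin n)} (hi : i ∉ S)
    (BL : Finset LB) (FL : Finset LF) (z : Co n LB LF → ℝ) :
    ∑ e ∈ Rw i S BL FL, ∑ f ∈ Rw i S BL FL, ∑ g ∈ Rw i S BL FL, ∑ h ∈ Rw i S BL FL,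
      cx (g1 _) K (Zxm (muA (Xs n) lam η c) 1 (Sm b cB cF s η) x)
      (avm (muA (Xs n) lam η c) 1 (Sm b cB cF s η)
        (fun w => Sm b cB cF s η e w * Sm b cB cF s η f w * Sm b cB cF s η g w *
          Sm b cB cF s η h w)) z ^ 2 ≤
    8 * (b ^ 2 / n * (∑ l ∈ BL, cB l ^ 2)) ^ 4 * mo S 4 (rA b cB cF s η lam c x K z) +
      8 * (∑ l ∈ FL, cF l ^ 2) ^ 4 := by
  rw [r4_Rw b cB cF s hl hη c x K hi BL FL z]
  exact E2_lin_four (rA_nonneg b cB cF s hl hη c x K z) (rA_sum b cB cF s hl hη c x K z) _ _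

/-- first moments with a bounded factor, `|h| ≤ C`: `∑_{j ∈ S} (cx ⟨h σ_j⟩)^2 ≤ C^2 mo2^(1/2)` -/
theorem amp_sq_le (K : Finset (Co n LB LF)) (S : Finset (Fin n)) {h : ℝ × Xs n → ℝ}
    (hh : Bm h) {C : ℝ} (hC : ∀ ω, |h ω| ≤ C) (hC0 : 0 ≤ C) (z : Co n LB LF → ℝ) :
    ∑ j ∈ S, cx (g1 _) K (Zxm (muA (Xs n) lam η c) 1 (Sm b cB cF s η) x)
      (avm (muA (Xs n) lam η c) 1 (Sm b cB cF s η) (fun w => h w * sp w.2 j)) z ^ 2 ≤
      C ^ 2 * √(mo S 2 (rA b cB cF s η lam c x K z)) := by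
  have := dmx n
  have hG := gmA (n := n) b cB cF s hl hη c
  have hw := wtA (n := n) b cB cF s hl hη c x
  have e : ∀ j, cx (g1 _) K (Zxm (muA (Xs n) lam η c) 1 (Sm b cB cF s η) x)
      (avm (muA (Xs n) lam η c) 1 (Sm b cB cF s η) (fun w => h w * sp w.2 j)) z =
      ∑ σ, pz (muA (Xs n) lam η c) 1 (Sm b cB cF s η)
        (Zxm (muA (Xs n) lam η c) 1 (Sm b cB cF s η) x) Prod.snd K h z σ * sp σ j := fun j =>
    cx_fin hG hw 1 measurable_snd hh (fun σ => sp σ j) z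
  simp only [e]
  exact sum_sq_le S (rA_nonneg b cB cF s hl hη c x K z) (rA_sum b cB cF s hl hη c x K z) hC0
    (fun σ => abs_pz_le hG hw 1 measurable_snd hh hC z σ) (fun j σ => sp σ j)

end sk

end Vale.Agent.P146.H347
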