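import Vale.Agent.P146.H347.Mod4

/-!
Exchangeability of the sites and of the pairs of sites: sums over the sites outside `S`, sums over
the pairs which are not inside `S`, in terms of the full sums.
-/

open MeasureTheory ProbabilityTheory

namespace Vale.Agent.P146.H347

open Vale.Agent.P157.Lv Vale.Agent.P146.H196 Vale.Agent.P146.H646 Vale.Agent.P146.H475
  Vale.Agent.P146.H816 Vale.Agent.P146.H325

set_option linter.unusedSectionVars false

variable {n : ℕ} {LB LF : Type} [Fintype LB] [DecidableEq LB] [Fintype LF] [DecidableEq LF]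

/-! ### counting pairs -/

/-- the pairs inside `S` -/
def Pin (S : Finset (Fin n)) : Finset (Pair n) :=
  Finset.univ.filter fun p => p.1.1 ∈ S ∧ p.1.2 ∈ S

lemma mem_Pin {S : Finset (Fin n)} {p : Pair n} : p ∈ Pin S ↔ p.1.1 ∈ S ∧ p.1.2 ∈ S := by
  simp [Pin]

lemma Pin_univ : Pin (Finset.univ : Finset (Fin n)) = Finset.univ := by
  ext p
  simp [mem_Pin]

/-- sums over all the pairs of sites -/
lemma sum_prs (G : Fin n → Fin n → ℝ) (hG : ∀ i j, G i j = G j i) :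
    ∑ i, ∑ j, G i j = ∑ i, G i i + 2 * ∑ p : Pair n, G p.1.1 p.1.2 := by
  have h0 : ∀ i, ∑ j, G i j = G i i + ∑ e ∈ row i, G e.1.1 e.1.2 := by
    intro i
    rw [← Finset.add_sum_erase _ _ (Finset.mem_univ i)]
    congr 1
    rw [← sum_row i (G i)]
    refine Finset.sum_congr rfl fun e he => ?_
    rw [mem_row] at he
    unfold oth
    split_ifs with h1
    · rw [h1]
    · rw [hG i, he.resolve_left h1]
  simp only [h0]
  rw [Finset.sum_add_distrib, sum_rows fun e => G e.1.1 e.1.2]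

/-- sums over the pairs inside `S` -/
lemma sum_prs_in (S : Finset (Fin n)) (G : Fin n → Fin n → ℝ) (hG : ∀ i j, G i j = G j i) :
    ∑ i ∈ S, ∑ j ∈ S, G i j = ∑ i ∈ S, G i i + 2 * ∑ p ∈ Pin S, G p.1.1 p.1.2 := by
  have h := sum_prs (fun i j => if i ∈ S ∧ j ∈ S then G i j else 0) (fun i j => by
    simp only [and_comm (a := i ∈ S), hG i j])
  have h1 : ∀ i, (∑ j, if i ∈ S ∧ j ∈ S then G i j else 0) =
      if i ∈ S then ∑ j ∈ S, G i j else 0 := by
    intro i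
    by_cases hi : i ∈ S
    · simp only [hi, true_and, if_true]
      rw [← Finset.sum_filter]
      congr 1
      ext j
      simp
    · simp [hi]
  simp only [h1] at h
  rw [Finset.sum_ite_mem, Finset.univ_inter] at h
  rw [h]
  congr 1
  · simp only [and_self]
    rw [Finset.sum_ite_mem, Finset.univ_inter]
  · unfold Pin
    rw [Finset.sum_filter]

lemma card_Pin (S : Finset (Fin n)) :
    2 * ((Pin S).card : ℝ) = (S.card : ℝ) * (S.card - 1) := by
  have h := sum_prs_in S (fun _ _ => (1 : ℝ)) fun _ _ => rfl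
  simp only [Finset.sum_const, nsmul_eq_mul, mul_one] at h
  linarith

lemma card_Pair (n : ℕ) : 2 * (Fintype.card (Pair n) : ℝ) = (n : ℝ) * (n - 1) := by
  have h := card_Pin (Finset.univ : Finset (Fin n))
  rw [Pin_univ, Finset.card_univ, Finset.card_univ, Fintype.card_fin] at h
  exact h

/-! ### transitivity -/

lemma exists_perm {a b c d : Fin n} (h1 : a ≠ b) (h2 : c ≠ d) :
    ∃ π : Equiv.Perm (Fin n), π a = c ∧ π b = d := by
  refine ⟨(Equiv.swap a c).trans (Equiv.swap (Equiv.swap a c b) d), ?_, ?_⟩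
  · rw [Equiv.trans_apply, Equiv.swap_apply_left]
    refine Equiv.swap_apply_of_ne_of_ne ?_ h2
    intro h
    have h3 : Equiv.swap a c a = Equiv.swap a c b := (Equiv.swap_apply_left a c).trans h
    exact h1 ((Equiv.swap a c).injective h3)
  · rw [Equiv.trans_apply, Equiv.swap_apply_left]

lemma exists_pf (p q : Pair n) : ∃ π : Equiv.Perm (Fin n), pf π p = q := by
  obtain ⟨π, h1, h2⟩ := exists_perm (ne_of_lt p.2) (ne_of_lt q.2)
  refine ⟨π, ?_⟩
  unfold pf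
  rw [dif_pos (by rw [h1, h2]; exact q.2)]
  ext <;> simp [h1, h2]

/-- a family indexed by the couplings, equivariant under permutations -/
def EqPr (Ψ : Pair n → (Co n LB LF → ℝ) → ℝ) : Prop := ∀ π p z, Ψ p (acP π z) = Ψ (pf π p) z

section ex

variable {w : (Co n LB LF → ℝ) → ℝ}

theorem ex_site (hw : InvP w) {Ψ : Fin n → (Co n LB LF → ℝ) → ℝ} (hΨ : Eq1 Ψ) (i j : Fin n) :
    ex (g1 _) w (Ψ i) = ex (g1 _) w (Ψ j) := by
  rw [← ex_P hw (Equiv.swap i j) (Ψ i)]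
  congr 1
  funext z
  rw [hΨ, Equiv.swap_apply_left]

theorem ex_pair (hw : InvP w) {Ψ : Pair n → (Co n LB LF → ℝ) → ℝ} (hΨ : EqPr Ψ)
    (p q : Pair n) : ex (g1 _) w (Ψ p) = ex (g1 _) w (Ψ q) := by
  obtain ⟨π, h⟩ := exists_pf p q
  rw [← ex_P hw π (Ψ p)]
  congr 1
  funext z
  rw [hΨ, h]

/-- sums over a set of sites -/
theorem ex_sum_site (hw : InvP w) (hwt : Wt (g1 _) w) {Ψ : Fin n → (Co n LB LF → ℝ) → ℝ}
    (hΨ : Eq1 Ψ) (hb : ∀ i, BM (Ψ i)) (S : Finset (Fin n)) :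
    (n : ℝ) * ex (g1 _) w (fun z => ∑ i ∈ S, Ψ i z) =
      S.card * ex (g1 _) w (fun z => ∑ i, Ψ i z) := by
  rw [hwt.ex_sum S fun i _ => hb i, hwt.ex_sum Finset.univ fun i _ => hb i]
  rcases isEmpty_or_nonempty (Fin n) with h | h
  · have h1 : S = ∅ := Finset.eq_empty_of_isEmpty S
    subst h1
    simp
  · obtain ⟨a⟩ := h
    rw [Finset.sum_congr rfl fun i _ => ex_site hw hΨ i a,
      Finset.sum_congr rfl fun i _ => ex_site hw hΨ i a]
    simp only [Finset.sum_const, Finset.card_univ, Fintype.card_fin, nsmul_eq_mul]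
    ring

/-- the sites outside `S` -/
theorem ex_sum_site_compl (hw : InvP w) (hwt : Wt (g1 _) w)
    {Ψ : Fin n → (Co n LB LF → ℝ) → ℝ} (hΨ : Eq1 Ψ) (hb : ∀ i, BM (Ψ i))
    (S : Finset (Fin n)) (hn : n ≠ 0) :
    ex (g1 _) w (fun z => ∑ i ∈ Sᶜ, Ψ i z) =
      (1 - (S.card : ℝ) / n) * ex (g1 _) w (fun z => ∑ i, Ψ i z) := by
  have h := ex_sum_site hw hwt hΨ hb Sᶜ
  have hn' : (n : ℝ) ≠ 0 := by exact_mod_cast hn
  have h1 : ((Sᶜ).card : ℝ) = n - S.card := by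
    have h2 := Finset.card_compl S
    rw [Fintype.card_fin] at h2
    have h3 : S.card ≤ n := by
      have := Finset.card_le_univ S
      rwa [Fintype.card_fin] at this
    rw [h2, Nat.cast_sub h3]
  rw [h1] at h
  have h4 : ex (g1 _) w (fun z => ∑ i ∈ Sᶜ, Ψ i z) =
      ((n : ℝ) - S.card) * ex (g1 _) w (fun z => ∑ i, Ψ i z) / n := by
    rw [← h]
    field_simp
  rw [h4]
  field_simp

/-- sums over a set of pairs -/
theorem ex_sum_pair (hw : InvP w) (hwt : Wt (g1 _) w) {Ψ : Pair n → (Co n LB LF → ℝ) → ℝ}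
    (hΨ : EqPr Ψ) (hb : ∀ p, BM (Ψ p)) (A : Finset (Pair n)) :
    (Fintype.card (Pair n) : ℝ) * ex (g1 _) w (fun z => ∑ p ∈ A, Ψ p z) =
      A.card * ex (g1 _) w (fun z => ∑ p, Ψ p z) := by
  rw [hwt.ex_sum A fun i _ => hb i, hwt.ex_sum Finset.univ fun i _ => hb i]
  rcases isEmpty_or_nonempty (Pair n) with h | h
  · have h1 : A = ∅ := Finset.eq_empty_of_isEmpty A
    subst h1
    simp
  · obtain ⟨a⟩ := h
    rw [Finset.sum_congr rfl fun i _ => ex_pair hw hΨ i a,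
      Finset.sum_congr rfl fun i _ => ex_pair hw hΨ i a]
    simp only [Finset.sum_const, Finset.card_univ, nsmul_eq_mul]
    ring

/-- the pairs inside `S` -/
theorem ex_sum_Pin (hw : InvP w) (hwt : Wt (g1 _) w) {Ψ : Pair n → (Co n LB LF → ℝ) → ℝ}
    (hΨ : EqPr Ψ) (hb : ∀ p, BM (Ψ p)) (S : Finset (Fin n)) :
    (n : ℝ) * (n - 1) * ex (g1 _) w (fun z => ∑ p ∈ Pin S, Ψ p z) =
      S.card * (S.card - 1) * ex (g1 _) w (fun z => ∑ p, Ψ p z) := by
  have h := ex_sum_pair hw hwt hΨ hb (Pin S)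
  have h1 := card_Pin S
  have h2 := card_Pair n
  rw [← h2, ← h1]
  linear_combination 2 * h

/-- the pairs which are not inside `S` -/
theorem ex_sum_Pin_compl (hw : InvP w) (hwt : Wt (g1 _) w)
    {Ψ : Pair n → (Co n LB LF → ℝ) → ℝ} (hΨ : EqPr Ψ) (hb : ∀ p, BM (Ψ p))
    (S : Finset (Fin n)) (hn : 2 ≤ n) :
    ex (g1 _) w (fun z => ∑ p ∈ (Pin S)ᶜ, Ψ p z) =
      (1 - (S.card : ℝ) * (S.card - 1) / (n * (n - 1))) * ex (g1 _) w (fun z => ∑ p, Ψ p z) := by
  have h := ex_sum_pair hw hwt hΨ hb (Pin S)ᶜ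
  have h1 := card_Pin S
  have h2 := card_Pair n
  have hn' : (2 : ℝ) ≤ n := by exact_mod_cast hn
  have h3 : ((Pin S)ᶜ.card : ℝ) = Fintype.card (Pair n) - (Pin S).card := by
    rw [Finset.card_compl, Nat.cast_sub (Finset.card_le_univ _)]
  rw [h3] at h
  have h4 : (0 : ℝ) < (n : ℝ) * (n - 1) := by nlinarith
  have h5 : (Fintype.card (Pair n) : ℝ) = n * (n - 1) / 2 := by linarith
  have h6 : ((Pin S).card : ℝ) = S.card * (S.card - 1) / 2 := by linarith
  rw [h5, h6] at h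
  have h7 : (n : ℝ) ≠ 0 := by linarith
  have h8 : (n : ℝ) - 1 ≠ 0 := by linarith
  field_simp
  linear_combination 2 * h

end ex

/-! ### the families of conditional means -/

section fam

variable {w : (Co n LB LF → ℝ) → ℝ} {K : Finset (Co n LB LF)}

/-- a revealed set which is invariant under all the permutations of the sites -/
def InvK (K : Finset (Co n LB LF)) : Prop := ∀ π e, cP LB LF π e ∈ K ↔ e ∈ K

lemma invK_univ (BL : Finset LB) (FL : Finset LF) : InvK (Kset (n := n) Finset.univ BL FL) :=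
  fun π e => cP_memK π (fun _ => by simp) e

/-- conditional means given an invariant revealed set are equivariant -/
theorem Eq1.cxK (hw : InvP w) (hK : InvK K) {Ψ : Fin n → (Co n LB LF → ℝ) → ℝ} (hΨ : Eq1 Ψ) :
    Eq1 fun i => H646.cx (g1 _) K w (Ψ i) := fun π i z => hΨ.cx hw (hK π) i z

theorem Eq2.cxK (hw : InvP w) (hK : InvK K) {Ψ : Fin n → Fin n → (Co n LB LF → ℝ) → ℝ}
    (hΨ : Eq2 Ψ) : Eq2 fun i j => H646.cx (g1 _) K w (Ψ i j) :=
  fun π i j z => hΨ.cx hw (hK π) i j z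

theorem EqPr.cxK (hw : InvP w) (hK : InvK K) {Ψ : Pair n → (Co n LB LF → ℝ) → ℝ}
    (hΨ : EqPr Ψ) : EqPr fun p => cx (g1 _) K w (Ψ p) := by
  intro π p z
  show cx (g1 _) K w (Ψ p) (acP π z) = cx (g1 _) K w (Ψ (pf π p)) z
  rw [cx_P hw (hK π)]
  congr 1
  funext z
  exact hΨ π p z

lemma EqPr.comp {Ψ : Pair n → (Co n LB LF → ℝ) → ℝ} (hΨ : EqPr Ψ) (φ : ℝ → ℝ) :
    EqPr fun p z => φ (Ψ p z) := fun π p z => by
  show φ (Ψ p (acP π z)) = _
  rw [hΨ]

lemma EqPr.inv_mul {Ψ : Pair n → (Co n LB LF → ℝ) → ℝ} (hΨ : EqPr Ψ)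
    {H : (Co n LB LF → ℝ) → ℝ} (hH : InvP H) : EqPr fun p z => H z * Ψ p z := fun π p z => by
  show H (acP π z) * Ψ p (acP π z) = _
  rw [hΨ, hH]

/-- a symmetric family indexed by two sites gives a family indexed by the couplings -/
lemma Eq2.toPr {Λ : Fin n → Fin n → (Co n LB LF → ℝ) → ℝ} (h : Eq2 Λ)
    (hs : ∀ i j z, Λ i j z = Λ j i z) : EqPr fun p => Λ p.1.1 p.1.2 := by
  intro π p z
  show Λ p.1.1 p.1.2 (acP π z) = Λ (pf π p).1.1 (pf π p).1.2 z
  rw [h]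
  unfold pf
  split_ifs with h1
  · rfl
  · exact hs _ _ z

variable (b : ℝ) (cB : LB → ℝ) (cF : LF → ℝ) (s η : ℝ) {lam : ℝ} (hl : 0 < lam) (c k : ℝ)
include hl

/-- `⟨g(t) σ_p⟩`, `p` a coupling -/
theorem eqPr_SkS (g : ℝ → ℝ) :
    EqPr fun p => avm (muA (Xs n) lam η c) k (Sm b cB cF s η) (fun w => g w.1 * SkS p w.2) := by
  intro π p z
  show avm (muA (Xs n) lam η c) k (Sm b cB cF s η) (fun w => g w.1 * SkS p w.2)
    (ac (cP LB LF π) (fun _ => 1) z) = _
  rw [(symP b cB cF s η hl c π).av]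
  simp only [SkS_pf]

/-- `⟨σ_p⟩`, `p` a coupling -/
theorem eqPr_SkS' :
    EqPr fun p => avm (muA (Xs n) lam η c) k (Sm b cB cF s η) (fun w => SkS p w.2) := by
  have h := eqPr_SkS (n := n) b cB cF s η hl c k (fun _ => 1)
  simpa only [one_mul] using h

/-- `⟨σ_i⟩` -/
theorem eq1_sp' :
    Eq1 fun i => avm (muA (Xs n) lam η c) k (Sm b cB cF s η) (fun w => sp w.2 i) := by
  have h := eq1_sp (n := n) b cB cF s η hl c k (fun _ => 1)
  simpa only [one_mul] using h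

end fam

/-! ### the terms of the last stages of the path, literal form -/

section lit

variable (b : ℝ) (cB : LB → ℝ) (cF : LF → ℝ) (s : ℝ) {η lam : ℝ}

lemma bm_SkS (p : Pair n) : Bm fun w : ℝ × Xs n => SkS p w.2 := by
  have := dmx n
  exact Bm.of ((Measurable.of_discrete (f := fun σ : Xs n => SkS p σ)).comp measurable_snd)
    (C := 1) fun w => (abs_SkS p w.2).le

/-- sum over the pairs not inside `S` of the squares of the conditional means of `⟨σ_p⟩` -/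
theorem ex_pairs_out (hl : 0 < lam) (hη : 0 ≤ η) (c x : ℝ) {K : Finset (Co n LB LF)}
    (hK : InvK K) (S : Finset (Fin n)) (hn : 2 ≤ n) :
    ex (g1 _) (Zxm (muA (Xs n) lam η c) 1 (Sm b cB cF s η) x) (fun z => ∑ p ∈ (Pin S)ᶜ,
      cx (g1 _) K (Zxm (muA (Xs n) lam η c) 1 (Sm b cB cF s η) x)
        (avm (muA (Xs n) lam η c) 1 (Sm b cB cF s η) (fun w => SkS p w.2)) z ^ 2) =
    (1 - (S.card : ℝ) * (S.card - 1) / (n * (n - 1))) *
      ex (g1 _) (Zxm (muA (Xs n) lam η c) 1 (Sm b cB cF s η) x) (fun z => ∑ p : Pair n,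
      cx (g1 _) K (Zxm (muA (Xs n) lam η c) 1 (Sm b cB cF s η) x)
        (avm (muA (Xs n) lam η c) 1 (Sm b cB cF s η) (fun w => SkS p w.2)) z ^ 2) := by
  have hw := invP_Z (n := n) b cB cF s η hl c 1 x
  have hwt := wtA (n := n) b cB cF s hl hη c x
  exact ex_sum_Pin_compl hw hwt
    ((EqPr.cxK hw hK (eqPr_SkS' b cB cF s η hl c 1)).comp (fun y => y ^ 2))
    (fun p => (hwt.bm_cx K (bmA b cB cF s hl hη c (bm_SkS p))).sq) S hn

/-- sum over the sites outside `S` of the squares of the conditional means of `⟨σ_i⟩` -/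
theorem ex_sites_out (hl : 0 < lam) (hη : 0 ≤ η) (c x : ℝ) {K : Finset (Co n LB LF)}
    (hK : InvK K) (S : Finset (Fin n)) (hn : n ≠ 0) :
    ex (g1 _) (Zxm (muA (Xs n) lam η c) 1 (Sm b cB cF s η) x) (fun z => ∑ i ∈ Sᶜ,
      cx (g1 _) K (Zxm (muA (Xs n) lam η c) 1 (Sm b cB cF s η) x)
        (avm (muA (Xs n) lam η c) 1 (Sm b cB cF s η) (fun w => sp w.2 i)) z ^ 2) =
    (1 - (S.card : ℝ) / n) *
      ex (g1 _) (Zxm (muA (Xs n) lam η c) 1 (Sm b cB cF s η) x) (fun z => ∑ i,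
      cx (g1 _) K (Zxm (muA (Xs n) lam η c) 1 (Sm b cB cF s η) x)
        (avm (muA (Xs n) lam η c) 1 (Sm b cB cF s η) (fun w => sp w.2 i)) z ^ 2) := by
  have hw := invP_Z (n := n) b cB cF s η hl c 1 x
  have hwt := wtA (n := n) b cB cF s hl hη c x
  exact ex_sum_site_compl hw hwt
    ((Eq1.cxK hw hK (eq1_sp' b cB cF s η hl c 1)).comp (fun y => y ^ 2))
    (fun p => (hwt.bm_cx K (bmA b cB cF s hl hη c (bm_sp p))).sq) S hn

end lit

end Vale.Agent.P146.H347
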