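import Vale.Agent.P146.H281.U1
import Vale.Agent.P146.H347.Mod5

/-!
The ensemble `U` (`H281.U1`): `muU ν n` on `Th × Xs n`, energies `SU b cB cF a`, revealed sets
`Kset S BL FL` of `H347.Mod3` (a level of fields may be modulated, `FL` may contain such levels).

Port of the literal parts of `Mod3`, `Mod4`, `Mod5`:

* `sum_Rw_SU`, `sum_Rw_SUsq`: covariance and variance of the energies of the row of a hidden site;
* `wtU`, `bmU`, `sitesU` (interface of `H646.W0`);
* `invP_ZU`, `invG_ZU`: the weight `Z ^ x` is invariant;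
* `eq1_avU`, `eq2_avU`, `eqPr_avU`, `sg_avU` and the brackets `⟨g(θ) σ_j⟩`, `⟨g(θ) σ_i σ_j⟩`;
* replicas: `avR_PU`, `avR_GU`, `eq1_avRU`, `eq2_avRU`, `sg_avRU`;
* `ex_pairs_outU`, `ex_sites_outU`.
-/

open MeasureTheory ProbabilityTheory

namespace Vale.Agent.P146.H347.U

open Vale.Agent.P157.Lv Vale.Agent.P146.H196 Vale.Agent.P146.H646 Vale.Agent.P146.H475
  Vale.Agent.P146.H816 Vale.Agent.P146.H325 Vale.Agent.P146.H347 Vale.Agent.P146.H281.U

set_option linter.unusedSectionVars false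

variable {Th : Type} [MeasurableSpace Th] {n : ℕ} {LB LF : Type} [Fintype LB] [DecidableEq LB]
  [Fintype LF] [DecidableEq LF]
variable {ν : Measure Th} (b : ℝ) (cB : LB → ℝ) (cF : LF → ℝ) (a : LF → Th → ℝ) (η : ℝ)

lemma abs_one_sp (σ : Xs n) (i : Fin n) : |sp σ i| = 1 := by
  have h := sp_mul_self σ i
  rw [← abs_mul_abs_self] at h
  nlinarith [abs_nonneg (sp σ i)]

/-! ### the energies of the row -/

lemma SU_row {i : Fin n} {p : Pair n} (hp : p ∈ row i) (l : LB) (w : Th × Xs n) :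
    SU b cB cF a (bd LF p l) w = b / √n * cB l * (sp w.2 i * sp w.2 (oth i p)) := by
  rw [SU_bd, SkS_oth hp]
  rfl

/-- the covariance of the row energies of two configurations -/
theorem sum_Rw_SU {i : Fin n} {S : Finset (Fin n)} (hi : i ∉ S) (BL : Finset LB)
    (FL : Finset LF) (w w' : Th × Xs n) :
    ∑ e ∈ Rw i S BL FL, SU b cB cF a e w * SU b cB cF a e w' =
      sp w.2 i * sp w'.2 i * (b ^ 2 / n * (∑ l ∈ BL, cB l ^ 2) * ∑ j ∈ S, sp w.2 j * sp w'.2 j +
        ∑ l ∈ FL, cF l ^ 2 * (a l w.1 * a l w'.1)) := by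
  rw [sum_Rw' hi _ (fun j l => sp w.2 i * sp w'.2 i * (b ^ 2 / n * cB l ^ 2 *
    (sp w.2 j * sp w'.2 j)))]
  · rw [mul_add]
    congr 1
    · rw [Finset.mul_sum, Finset.mul_sum]
      refine Finset.sum_congr rfl fun j _ => ?_
      rw [Finset.mul_sum, Finset.sum_mul, Finset.mul_sum]
    · rw [Finset.mul_sum]
      refine Finset.sum_congr rfl fun l _ => ?_
      rw [SU_fd, SU_fd]
      ring
  · intro p hp _ l _
    rw [SU_row b cB cF a hp, SU_row b cB cF a hp, ← div_sqrt_sq]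
    ring

/-- the variance of the row energy of one configuration -/
theorem sum_Rw_SUsq {i : Fin n} {S : Finset (Fin n)} (hi : i ∉ S) (BL : Finset LB)
    (FL : Finset LF) (w : Th × Xs n) :
    ∑ e ∈ Rw i S BL FL, SU b cB cF a e w ^ 2 =
      b ^ 2 / n * (∑ l ∈ BL, cB l ^ 2) * S.card + ∑ l ∈ FL, cF l ^ 2 * a l w.1 ^ 2 := by
  have h := sum_Rw_SU b cB cF a hi BL FL w w
  simp only [sp_mul_self, one_mul, Finset.sum_const, nsmul_eq_mul, mul_one] at h
  simp only [sq] at h ⊢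
  rw [← h]

/-- the variance of the row energy is bounded -/
theorem sum_Rw_SUsq_le {a : LF → Th → ℝ} {η : ℝ} (hA : AmU a η) {i : Fin n}
    {S : Finset (Fin n)} (hi : i ∉ S) (BL : Finset LB) (FL : Finset LF) (w : Th × Xs n) :
    ∑ e ∈ Rw i S BL FL, SU b cB cF a e w ^ 2 ≤
      b ^ 2 * (∑ l ∈ BL, cB l ^ 2) + (1 + η) ^ 2 * ∑ l ∈ FL, cF l ^ 2 := by
  rw [sum_Rw_SUsq b cB cF a hi]
  have h1 : b ^ 2 / n * (∑ l ∈ BL, cB l ^ 2) * S.card ≤ b ^ 2 * ∑ l ∈ BL, cB l ^ 2 := by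
    have hc : (S.card : ℝ) ≤ n := by
      have := Finset.card_le_univ S
      rw [Fintype.card_fin] at this
      exact_mod_cast this
    have h0 : 0 ≤ b ^ 2 * ∑ l ∈ BL, cB l ^ 2 :=
      mul_nonneg (sq_nonneg _) (Finset.sum_nonneg fun _ _ => sq_nonneg _)
    rcases Nat.eq_zero_or_pos n with h | h
    · subst h
      simpa using h0
    · have hn : (0 : ℝ) < n := by exact_mod_cast h
      calc b ^ 2 / n * (∑ l ∈ BL, cB l ^ 2) * S.card
          = (b ^ 2 * ∑ l ∈ BL, cB l ^ 2) * (S.card / n) := by ring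
        _ ≤ (b ^ 2 * ∑ l ∈ BL, cB l ^ 2) * 1 :=
          mul_le_mul_of_nonneg_left ((div_le_one hn).2 hc) h0
        _ = _ := mul_one _
  have h2 : ∑ l ∈ FL, cF l ^ 2 * a l w.1 ^ 2 ≤ (1 + η) ^ 2 * ∑ l ∈ FL, cF l ^ 2 := by
    rw [Finset.mul_sum]
    refine Finset.sum_le_sum fun l _ => ?_
    rw [mul_comm]
    refine mul_le_mul_of_nonneg_right ?_ (sq_nonneg _)
    exact sq_le_sq' (by linarith [(abs_le.1 (hA.abs l w.1)).1]) (abs_le.1 (hA.abs l w.1)).2
  linarith

/-! ### regularity -/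

section reg

variable (hν : IsFiniteMeasure ν) (h0 : ν ≠ 0) {a : LF → Th → ℝ} {η : ℝ} (hA : AmU a η)

include hν h0 hA

theorem wtU (x : ℝ) : Wt (g1 (Co n LB LF)) (Zxm (muU ν n) 1 (SU b cB cF a) x) :=
  wt (gmU b cB cF η hν h0 hA) 1 x

theorem bmU {h : Th × Xs n → ℝ} (hh : Bm h) :
    BM (avm (muU ν n) 1 (SU b cB cF a : Co n LB LF → _) h) :=
  bm (gmU b cB cF η hν h0 hA) 1 hh

end reg

lemma measurable_spU (j : Fin n) : Measurable fun w : Th × Xs n => sp w.2 j := by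
  have := dmx n
  exact (Measurable.of_discrete (f := fun σ : Xs n => sp σ j)).comp measurable_snd

lemma bm_spU (j : Fin n) : Bm fun w : Th × Xs n => sp w.2 j :=
  Bm.of (measurable_spU j) (C := 1) fun w => (abs_one_sp w.2 j).le

lemma bm_SkSU (p : Pair n) : Bm fun w : Th × Xs n => SkS p w.2 := by
  have := dmx n
  exact Bm.of ((Measurable.of_discrete (f := fun σ : Xs n => SkS p σ)).comp measurable_snd)
    (C := 1) fun w => (H347.abs_SkS p w.2).le

lemma bm_fun {r : Th → ℝ} (hr : Measurable r) {C : ℝ} (hC : ∀ θ, |r θ| ≤ C) :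
    Bm fun w : Th × Xs n => r w.1 :=
  Bm.of (hr.comp measurable_fst) (C := C) fun w => hC w.1

lemma bm_fun_sp {r : Th → ℝ} (hr : Measurable r) {C : ℝ} (hC : ∀ θ, |r θ| ≤ C) (j : Fin n) :
    Bm fun w : Th × Xs n => r w.1 * sp w.2 j :=
  Bm.of ((hr.comp measurable_fst).mul (measurable_spU j)) (C := C) fun w => by
    show |r w.1 * sp w.2 j| ≤ C
    rw [abs_mul, abs_one_sp, mul_one]
    exact hC w.1

lemma bm_amp {a : LF → Th → ℝ} {η : ℝ} (hA : AmU a η) (l : LF) :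
    Bm fun w : Th × Xs n => a l w.1 := bm_fun (hA.meas l) (hA.abs l)

/-! ### the interface of `H646.W0` -/

theorem sitesU (hν : IsFiniteMeasure ν) {r : Th → ℝ} (hr : Measurable r) {C : ℝ}
    (hC : ∀ θ, |r θ| ≤ C) :
    Sites (muU ν n) (SU b cB cF a) (cP LB LF) (fun i w => sp w.2 i)
      (fun w => r w.1) (fun π => π) (fun j w => sp w.2 j) where
  sym π := ⟨fun w => (w.1, fun i => w.2 (π i)), symPU b cB cF a hν π, fun _ _ => rfl,
    fun _ => rfl, fun _ _ => rfl⟩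
  ms := measurable_spU
  bs i w := (abs_one_sp w.2 i).le
  ma := hr.comp measurable_fst
  ba := ⟨C, fun w => hC w.1⟩
  mt := measurable_spU
  bt i w := (abs_one_sp w.2 i).le

/-! ### invariance of the weight and of the brackets -/

section inv

variable (hν : IsFiniteMeasure ν) (k x : ℝ)
include hν

theorem invP_ZU : InvP (Zxm (muU ν n) k (SU b cB cF a : Co n LB LF → _) x) :=
  fun π z => (symPU b cB cF a hν π).Zx k x z

theorem invG_ZU : InvG (Zxm (muU ν n) k (SU b cB cF a : Co n LB LF → _) x) :=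
  fun τ z => (symGU b cB cF a hν τ).Zx k x z

theorem inv_avU {f : Th × Xs n → ℝ}
    (hf : ∀ (π : Equiv.Perm (Fin n)) w, f (w.1, fun i => w.2 (π i)) = f w) :
    InvP (avm (muU ν n) k (SU b cB cF a : Co n LB LF → _) f) := by
  intro π z
  unfold acP
  rw [(symPU b cB cF a hν π).av]
  simp only [hf]

theorem eq1_avU {f : Fin n → Th × Xs n → ℝ}
    (hf : ∀ (π : Equiv.Perm (Fin n)) j w, f j (w.1, fun i => w.2 (π i)) = f (π j) w) :
    Eq1 fun j => avm (muU ν n) k (SU b cB cF a : Co n LB LF → _) (f j) := by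
  intro π j z
  show avm (muU ν n) k (SU b cB cF a) (f j) (ac (cP LB LF π) (fun _ => 1) z) = _
  rw [(symPU b cB cF a hν π).av]
  simp only [hf]

theorem eq2_avU {f : Fin n → Fin n → Th × Xs n → ℝ}
    (hf : ∀ (π : Equiv.Perm (Fin n)) i j w, f i j (w.1, fun i => w.2 (π i)) = f (π i) (π j) w) :
    Eq2 fun i j => avm (muU ν n) k (SU b cB cF a : Co n LB LF → _) (f i j) := by
  intro π i j z
  show avm (muU ν n) k (SU b cB cF a) (f i j) (ac (cP LB LF π) (fun _ => 1) z) = _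
  rw [(symPU b cB cF a hν π).av]
  simp only [hf]

theorem eqPr_avU {f : Pair n → Th × Xs n → ℝ}
    (hf : ∀ (π : Equiv.Perm (Fin n)) p w, f p (w.1, fun i => w.2 (π i)) = f (pf π p) w) :
    EqPr fun p => avm (muU ν n) k (SU b cB cF a : Co n LB LF → _) (f p) := by
  intro π p z
  show avm (muU ν n) k (SU b cB cF a) (f p) (ac (cP LB LF π) (fun _ => 1) z) = _
  rw [(symPU b cB cF a hν π).av]
  simp only [hf]

/-- `⟨g(θ) σ_j⟩` -/
theorem eq1_spU (g : Th → ℝ) :
    Eq1 fun j => avm (muU ν n) k (SU b cB cF a : Co n LB LF → _)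
      (fun w => g w.1 * sp w.2 j) :=
  eq1_avU b cB cF a hν k fun _ _ _ => rfl

/-- `⟨g(θ) σ_i σ_j⟩` -/
theorem eq2_spU (g : Th → ℝ) :
    Eq2 fun i j => avm (muU ν n) k (SU b cB cF a : Co n LB LF → _)
      (fun w => g w.1 * (sp w.2 i * sp w.2 j)) :=
  eq2_avU b cB cF a hν k fun _ _ _ _ => rfl

/-- `⟨σ_i⟩` -/
theorem eq1_spU' :
    Eq1 fun i => avm (muU ν n) k (SU b cB cF a : Co n LB LF → _) (fun w => sp w.2 i) :=
  eq1_avU b cB cF a hν k fun _ _ _ => rfl

/-- `⟨g(θ) σ_p⟩`, `p` a coupling -/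
theorem eqPr_SkSU (g : Th → ℝ) :
    EqPr fun p => avm (muU ν n) k (SU b cB cF a : Co n LB LF → _)
      (fun w => g w.1 * SkS p w.2) :=
  eqPr_avU b cB cF a hν k fun π p w => by simp only [SkS_pf]

/-- `⟨σ_p⟩`, `p` a coupling -/
theorem eqPr_SkSU' :
    EqPr fun p => avm (muU ν n) k (SU b cB cF a : Co n LB LF → _) (fun w => SkS p w.2) :=
  eqPr_avU b cB cF a hν k fun π p w => by simp only [SkS_pf]

/-- brackets of an odd or even function -/
theorem sg_avU {τ : Xs n} {r : ℝ} {f : Th × Xs n → ℝ}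
    (hf : ∀ w, f (w.1, fun i => w.2 i * τ i) = r * f w) :
    Sg τ r (avm (muU ν n) k (SU b cB cF a : Co n LB LF → _) f) := by
  intro z
  rw [(symGU b cB cF a hν τ).av]
  simp only [hf]
  exact av_mul _ _ _ r f z

/-- `⟨g(θ) σ_j⟩` -/
theorem sg_spU (τ : Xs n) (g : Th → ℝ) (j : Fin n) :
    Sg τ (sp τ j) (avm (muU ν n) k (SU b cB cF a : Co n LB LF → _)
      (fun w => g w.1 * sp w.2 j)) :=
  sg_avU b cB cF a hν k fun w => by
    simp only
    rw [sp_mul]
    ring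

/-- `⟨g(θ) σ_i σ_j⟩` -/
theorem sg_sp2U (τ : Xs n) (g : Th → ℝ) (i j : Fin n) :
    Sg τ (sp τ i * sp τ j) (avm (muU ν n) k (SU b cB cF a : Co n LB LF → _)
      (fun w => g w.1 * (sp w.2 i * sp w.2 j))) :=
  sg_avU b cB cF a hν k fun w => by
    simp only
    rw [sp_mul, sp_mul]
    ring

/-- `⟨g(θ)⟩` -/
theorem sg_oneU (τ : Xs n) (g : Th → ℝ) :
    Sg τ 1 (avm (muU ν n) k (SU b cB cF a : Co n LB LF → _) (fun w => g w.1)) :=
  sg_avU b cB cF a hν k fun _ => (one_mul _).symm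

end inv

/-! ### replicas -/

section rep

variable (hν : IsFiniteMeasure ν) (k : ℝ) {R : Type} [Fintype R]
include hν

theorem avR_PU (π : Equiv.Perm (Fin n)) (f : (R → Th × Xs n) → ℝ) (z : Co n LB LF → ℝ) :
    avR (muU ν n) k (SU b cB cF a) R f (acP π z) =
      avR (muU ν n) k (SU b cB cF a) R
        (fun w => f fun r => ((w r).1, fun i => (w r).2 (π i))) z := by
  have := dmx n
  have := msx n
  have := finite_muU hν n
  exact (symPU b cB cF a hν π).avR
    ((MeasurableEquiv.refl Th).prodCongr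
      ⟨rel π, Measurable.of_discrete, Measurable.of_discrete⟩) rfl k f z

theorem avR_GU (τ : Xs n) (f : (R → Th × Xs n) → ℝ) (z : Co n LB LF → ℝ) :
    avR (muU ν n) k (SU b cB cF a) R f (ac 1 (eps LB LF τ) z) =
      avR (muU ν n) k (SU b cB cF a) R
        (fun w => f fun r => ((w r).1, fun i => (w r).2 i * τ i)) z := by
  have := dmx n
  have := msx n
  have := finite_muU hν n
  exact (symGU b cB cF a hν τ).avR
    ((MeasurableEquiv.refl Th).prodCongr
      ⟨mulE τ, Measurable.of_discrete, Measurable.of_discrete⟩) rfl k f z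

theorem sg_avRU {τ : Xs n} {r : ℝ} {f : (R → Th × Xs n) → ℝ}
    (hf : ∀ w, f (fun q => ((w q).1, fun i => (w q).2 i * τ i)) = r * f w) :
    Sg τ r (avR (muU ν n) k (SU b cB cF a : Co n LB LF → _) R f) := by
  intro z
  rw [avR_GU b cB cF a hν k]
  simp only [hf]
  exact av_mul _ _ _ r f z

theorem eq1_avRU {f : Fin n → (R → Th × Xs n) → ℝ}
    (hf : ∀ (π : Equiv.Perm (Fin n)) j w,
      f j (fun q => ((w q).1, fun i => (w q).2 (π i))) = f (π j) w) :
    Eq1 fun j => avR (muU ν n) k (SU b cB cF a : Co n LB LF → _) R (f j) := by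
  intro π j z
  show avR (muU ν n) k (SU b cB cF a) R (f j) (acP π z) = _
  rw [avR_PU b cB cF a hν k]
  simp only [hf]

theorem eq2_avRU {f : Fin n → Fin n → (R → Th × Xs n) → ℝ}
    (hf : ∀ (π : Equiv.Perm (Fin n)) i j w,
      f i j (fun q => ((w q).1, fun i => (w q).2 (π i))) = f (π i) (π j) w) :
    Eq2 fun i j => avR (muU ν n) k (SU b cB cF a : Co n LB LF → _) R (f i j) := by
  intro π i j z
  show avR (muU ν n) k (SU b cB cF a) R (f i j) (acP π z) = _
  rw [avR_PU b cB cF a hν k]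
  simp only [hf]

end rep

/-! ### the terms of the last stages of the path -/

section lit

variable (hν : IsFiniteMeasure ν) (h0 : ν ≠ 0) {a : LF → Th → ℝ} {η : ℝ} (hA : AmU a η)
include hν h0 hA

/-- sum over the pairs not inside `S` of the squares of the conditional means of `⟨σ_p⟩` -/
theorem ex_pairs_outU (x : ℝ) {K : Finset (Co n LB LF)}
    (hK : InvK K) (S : Finset (Fin n)) (hn : 2 ≤ n) :
    ex (g1 _) (Zxm (muU ν n) 1 (SU b cB cF a) x) (fun z => ∑ p ∈ (Pin S)ᶜ,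
      cx (g1 _) K (Zxm (muU ν n) 1 (SU b cB cF a) x)
        (avm (muU ν n) 1 (SU b cB cF a) (fun w => SkS p w.2)) z ^ 2) =
    (1 - (S.card : ℝ) * (S.card - 1) / (n * (n - 1))) *
      ex (g1 _) (Zxm (muU ν n) 1 (SU b cB cF a) x) (fun z => ∑ p : Pair n,
      cx (g1 _) K (Zxm (muU ν n) 1 (SU b cB cF a) x)
        (avm (muU ν n) 1 (SU b cB cF a) (fun w => SkS p w.2)) z ^ 2) := by
  have hw := invP_ZU (n := n) b cB cF a hν 1 x
  have hwt := wtU (n := n) b cB cF hν h0 hA x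
  exact ex_sum_Pin_compl hw hwt
    ((EqPr.cxK hw hK (eqPr_SkSU' b cB cF a hν 1)).comp (fun y => y ^ 2))
    (fun p => (hwt.bm_cx K (bmU b cB cF hν h0 hA (bm_SkSU p))).sq) S hn

/-- sum over the sites outside `S` of the squares of the conditional means of `⟨r σ_i⟩` -/
theorem ex_sites_outU (x : ℝ) {K : Finset (Co n LB LF)}
    (hK : InvK K) (S : Finset (Fin n)) (hn : n ≠ 0) {r : Th → ℝ} (hr : Measurable r) {C : ℝ}
    (hC : ∀ θ, |r θ| ≤ C) :
    ex (g1 _) (Zxm (muU ν n) 1 (SU b cB cF a) x) (fun z => ∑ i ∈ Sᶜ,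
      cx (g1 _) K (Zxm (muU ν n) 1 (SU b cB cF a) x)
        (avm (muU ν n) 1 (SU b cB cF a) (fun w => r w.1 * sp w.2 i)) z ^ 2) =
    (1 - (S.card : ℝ) / n) *
      ex (g1 _) (Zxm (muU ν n) 1 (SU b cB cF a) x) (fun z => ∑ i,
      cx (g1 _) K (Zxm (muU ν n) 1 (SU b cB cF a) x)
        (avm (muU ν n) 1 (SU b cB cF a) (fun w => r w.1 * sp w.2 i)) z ^ 2) := by
  have hw := invP_ZU (n := n) b cB cF a hν 1 x
  have hwt := wtU (n := n) b cB cF hν h0 hA x
  exact ex_sum_site_compl hw hwt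
    ((Eq1.cxK hw hK (eq1_spU b cB cF a hν 1 r)).comp (fun y => y ^ 2))
    (fun p => (hwt.bm_cx K (bmU b cB cF hν h0 hA (bm_fun_sp hr hC p))).sq) S hn

end lit

end Vale.Agent.P146.H347.U
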