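import Mathlib
import Vale.Agent.P146.H646.Blk

/-!
Signed permutations of Gaussian coordinates: they preserve the product Gaussian measure, commute
with the gluing of two points, and hence with the block conditioning `cx` of `H646.Blk`.
-/

open MeasureTheory ProbabilityTheory

namespace Vale.Agent.P146.H347

open Vale.Agent.P146.H646

set_option linter.unusedSectionVars false

variable {κ : Type*} [Fintype κ] [DecidableEq κ]

/-- the standard Gaussian factors -/
noncomputable abbrev g1 (κ : Type*) : κ → Measure ℝ := fun _ => gaussianReal 0 1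

/-- a signed permutation of the coordinates -/
def ac (c : Equiv.Perm κ) (ε : κ → ℝ) (z : κ → ℝ) : κ → ℝ := fun e => ε e * z (c e)

lemma gauss_sign {s : ℝ} (hs : s * s = 1) :
    MeasurePreserving (fun x : ℝ => s * x) (gaussianReal 0 1) (gaussianReal 0 1) := by
  refine ⟨by fun_prop, ?_⟩
  rw [gaussianReal_map_const_mul]
  congr 1
  · simp
  · ext
    simp [pow_two, hs]

lemma mp_perm (c : Equiv.Perm κ) :
    MeasurePreserving (fun (z : κ → ℝ) e => z (c e)) (Measure.pi (g1 κ)) (Measure.pi (g1 κ)) := by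
  have h := measurePreserving_piCongrLeft (α := fun _ : κ => ℝ)
    (fun _ : κ => gaussianReal 0 1) c.symm
  convert h using 1
  funext g e
  rw [MeasurableEquiv.piCongrLeft, MeasurableEquiv.coe_mk]
  simp [Equiv.piCongrLeft_apply]

lemma mp_ac (c : Equiv.Perm κ) {ε : κ → ℝ} (hε : ∀ e, ε e * ε e = 1) :
    MeasurePreserving (ac c ε) (Measure.pi (g1 κ)) (Measure.pi (g1 κ)) := by
  have h1 : MeasurePreserving (fun (z : κ → ℝ) e => ε e * z e)
      (Measure.pi (g1 κ)) (Measure.pi (g1 κ)) :=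
    measurePreserving_pi _ _ fun e => gauss_sign (hε e)
  exact h1.comp (mp_perm c)

lemma ac_inv (c : Equiv.Perm κ) {ε : κ → ℝ} (hε : ∀ e, ε e * ε e = 1) (z : κ → ℝ) :
    ac c ε (ac c.symm (fun e => ε (c.symm e)) z) = z := by
  funext e
  simp only [ac, Equiv.symm_apply_apply]
  rw [← mul_assoc, hε, one_mul]

lemma ac_inv' (c : Equiv.Perm κ) {ε : κ → ℝ} (hε : ∀ e, ε e * ε e = 1) (z : κ → ℝ) :
    ac c.symm (fun e => ε (c.symm e)) (ac c ε z) = z := by
  funext e
  simp only [ac, Equiv.apply_symm_apply]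
  rw [← mul_assoc, hε, one_mul]

lemma measurable_ac (c : Equiv.Perm κ) (ε : κ → ℝ) : Measurable (ac c ε) := by
  unfold ac
  fun_prop

/-- the action as a measurable equivalence -/
def acE (c : Equiv.Perm κ) {ε : κ → ℝ} (hε : ∀ e, ε e * ε e = 1) : (κ → ℝ) ≃ᵐ (κ → ℝ) where
  toFun := ac c ε
  invFun := ac c.symm (fun e => ε (c.symm e))
  left_inv := ac_inv' c hε
  right_inv := ac_inv c hε
  measurable_toFun := measurable_ac _ _
  measurable_invFun := measurable_ac _ _

/-- change of variables, no measurability needed -/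
lemma integral_ac (c : Equiv.Perm κ) {ε : κ → ℝ} (hε : ∀ e, ε e * ε e = 1) (f : (κ → ℝ) → ℝ) :
    ∫ z, f (ac c ε z) ∂(Measure.pi (g1 κ)) = ∫ z, f z ∂(Measure.pi (g1 κ)) :=
  (mp_ac c hε).integral_comp (acE c hε).measurableEmbedding f

lemma ac_glue (c : Equiv.Perm κ) (ε : κ → ℝ) {K K' : Finset κ} (hK : ∀ e, c e ∈ K ↔ e ∈ K')
    (z z' : κ → ℝ) : ac c ε (glue K z z') = glue K' (ac c ε z) (ac c ε z') := by
  funext e
  by_cases h : e ∈ K'
  · simp [ac, glue, h, (hK e).2 h]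
  · have h' : c e ∉ K := fun h'' => h ((hK e).1 h'')
    simp [ac, glue, h, h']

variable {w Ψ : (κ → ℝ) → ℝ} {K K' : Finset κ}

/-- equivariance of the block conditioning; `w` invariant, any `Ψ`. -/
theorem cx_ac (c : Equiv.Perm κ) {ε : κ → ℝ} (hε : ∀ e, ε e * ε e = 1)
    (hw : ∀ z, w (ac c ε z) = w z) (hK : ∀ e, c e ∈ K ↔ e ∈ K') (Ψ : (κ → ℝ) → ℝ) (z : κ → ℝ) :
    cx (g1 κ) K w (fun z => Ψ (ac c ε z)) z = cx (g1 κ) K' w Ψ (ac c ε z) := by
  unfold cx wn
  congr 1
  · rw [← integral_ac c hε (fun z' => w (glue K' (ac c ε z) z') * Ψ (glue K' (ac c ε z) z'))]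
    refine integral_congr_ae (Filter.Eventually.of_forall fun z' => ?_)
    show w (glue K z z') * Ψ (ac c ε (glue K z z')) = _
    rw [← hw (glue K z z'), ac_glue c ε hK]
  · rw [← integral_ac c hε (fun z' => w (glue K' (ac c ε z) z'))]
    refine integral_congr_ae (Filter.Eventually.of_forall fun z' => ?_)
    show w (glue K z z') = _
    rw [← hw (glue K z z'), ac_glue c ε hK]

theorem ex_ac (c : Equiv.Perm κ) {ε : κ → ℝ} (hε : ∀ e, ε e * ε e = 1)
    (hw : ∀ z, w (ac c ε z) = w z) (Ψ : (κ → ℝ) → ℝ) :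
    ex (g1 κ) w (fun z => Ψ (ac c ε z)) = ex (g1 κ) w Ψ := by
  unfold ex
  congr 1
  rw [← integral_ac c hε (fun z => w z * Ψ z)]
  refine integral_congr_ae (Filter.Eventually.of_forall fun z => ?_)
  show w z * Ψ (ac c ε z) = w (ac c ε z) * Ψ (ac c ε z)
  rw [hw]

/-- a function of the coordinates in `K` only sees them. -/
lemma Dep.congr {Q : (κ → ℝ) → ℝ} (h : Dep K Q) {z z' : κ → ℝ} (hz : ∀ e ∈ K, z e = z' e) :
    Q z = Q z' := by
  rw [← h z z']
  congr 1
  funext e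
  by_cases he : e ∈ K
  · simp [glue, he, hz e he]
  · simp [glue, he]

/-- a sign change off `K` does not change the conditional mean. -/
theorem cx_fl {ε : κ → ℝ} (hε : ∀ e, ε e * ε e = 1) (hK : ∀ e ∈ K, ε e = 1)
    (hw : ∀ z, w (ac 1 ε z) = w z) (Ψ : (κ → ℝ) → ℝ) (z : κ → ℝ) :
    cx (g1 κ) K w (fun z => Ψ (ac 1 ε z)) z = cx (g1 κ) K w Ψ z := by
  rw [cx_ac (K' := K) 1 hε hw (fun e => by simp)]
  refine Dep.congr (dep_cx K) fun e he => ?_
  simp [ac, hK e he]

/-- an observable which is odd under a sign change off `K` has conditional mean zero. -/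
theorem cx_odd {ε : κ → ℝ} (hε : ∀ e, ε e * ε e = 1) (hK : ∀ e ∈ K, ε e = 1)
    (hw : ∀ z, w (ac 1 ε z) = w z) (hΨ : ∀ z, Ψ (ac 1 ε z) = -Ψ z) (z : κ → ℝ) :
    cx (g1 κ) K w Ψ z = 0 := by
  have h1 := cx_fl hε hK hw Ψ z
  have h2 : cx (g1 κ) K w (fun z => Ψ (ac 1 ε z)) z = -cx (g1 κ) K w Ψ z := by
    unfold cx
    rw [← neg_div, ← integral_neg]
    congr 1
    refine integral_congr_ae (Filter.Eventually.of_forall fun z' => ?_)
    show w _ * Ψ (ac 1 ε (glue K z z')) = -(w _ * Ψ _)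
    rw [hΨ]
    ring
  linarith

end Vale.Agent.P146.H347
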