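import Vale.Agent.P146.H196.Gibm
import Vale.Agent.P146.H347.Act

/-!
Symmetries of a Gibbs system over a finite measure space (`H196.Gibm`), and the admissibility of
its weight `Z ^ x` for the block conditioning of `H646.Blk`.
-/

open MeasureTheory ProbabilityTheory

namespace Vale.Agent.P146.H347

open Vale.Agent.P157.Lv Vale.Agent.P146.H196 Vale.Agent.P146.H646

set_option linter.unusedSectionVars false

variable {ι : Type} [Fintype ι] [DecidableEq ι] {Ω : Type} [MeasurableSpace Ω]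
  {μ : Measure Ω} {k x : ℝ} {S : ι → Ω → ℝ} {M0 : ℝ}

/-- A symmetry: `T` preserves the measure and the energies follow the signed permutation `c, ε` of
the coordinates. -/
structure Sym (μ : Measure Ω) (S : ι → Ω → ℝ) (c : Equiv.Perm ι) (ε : ι → ℝ) (T : Ω → Ω) :
    Prop where
  mp : MeasurePreserving T μ μ
  emb : MeasurableEmbedding T
  sq : ∀ e, ε e * ε e = 1
  eq : ∀ e w, S e (T w) = ε e * S (c e) w

variable {c : Equiv.Perm ι} {ε : ι → ℝ} {T : Ω → Ω}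

lemma Sym.ez (h : Sym μ S c ε T) (k : ℝ) (z : ι → ℝ) (w : Ω) :
    ezm k S (ac c ε z) (T w) = ezm k S z w := by
  unfold ezm
  congr 2
  rw [← Equiv.sum_comp c (fun e => S e w * z e)]
  refine Finset.sum_congr rfl fun e _ => ?_
  rw [h.eq, ac]
  have := h.sq e
  linear_combination (S (c e) w * z (c e)) * this

lemma Sym.int (h : Sym μ S c ε T) (k : ℝ) (f : Ω → ℝ) (z : ι → ℝ) :
    ∫ w, ezm k S (ac c ε z) w * f w ∂μ = ∫ w, ezm k S z w * f (T w) ∂μ := by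
  rw [← h.mp.integral_comp h.emb (fun w => ezm k S (ac c ε z) w * f w)]
  refine integral_congr_ae (Filter.Eventually.of_forall fun w => ?_)
  show ezm k S (ac c ε z) (T w) * f (T w) = _
  rw [h.ez]

/-- the partition function is invariant -/
lemma Sym.Z (h : Sym μ S c ε T) (k : ℝ) (z : ι → ℝ) : Zm μ k S (ac c ε z) = Zm μ k S z := by
  have h1 := h.int k (fun _ => 1) z
  simp only [mul_one] at h1
  exact h1

lemma Sym.lz (h : Sym μ S c ε T) (k : ℝ) (z : ι → ℝ) : lzm μ k S (ac c ε z) = lzm μ k S z := by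
  unfold lzm
  rw [h.Z]

lemma Sym.Zx (h : Sym μ S c ε T) (k x : ℝ) (z : ι → ℝ) :
    Zxm μ k S x (ac c ε z) = Zxm μ k S x z := by
  unfold Zxm
  rw [h.lz]

/-- the Gibbs averages are equivariant -/
lemma Sym.av (h : Sym μ S c ε T) (k : ℝ) (f : Ω → ℝ) (z : ι → ℝ) :
    avm μ k S f (ac c ε z) = avm μ k S (fun w => f (T w)) z := by
  unfold avm
  rw [h.Z, h.int]

/-- odd observables -/
lemma Sym.av_neg (h : Sym μ S c ε T) (k : ℝ) {f : Ω → ℝ} (hf : ∀ w, f (T w) = -f w)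
    (z : ι → ℝ) : avm μ k S f (ac c ε z) = -avm μ k S f z := by
  rw [h.av]
  simp only [hf]
  have := av_mul μ k S (-1) f z
  simp only [neg_one_mul] at this
  exact this

/-- equivariance of the conditional means of the law with weight `Z ^ x` -/
theorem Sym.cx (h : Sym μ S c ε T) (k x : ℝ) {K K' : Finset ι} (hK : ∀ e, c e ∈ K ↔ e ∈ K')
    (Ψ : (ι → ℝ) → ℝ) (z : ι → ℝ) :
    cx (g1 ι) K (Zxm μ k S x) (fun z => Ψ (ac c ε z)) z =
      cx (g1 ι) K' (Zxm μ k S x) Ψ (ac c ε z) :=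
  cx_ac c h.sq (h.Zx k x) hK Ψ z

theorem Sym.ex (h : Sym μ S c ε T) (k x : ℝ) (Ψ : (ι → ℝ) → ℝ) :
    ex (g1 ι) (Zxm μ k S x) (fun z => Ψ (ac c ε z)) = ex (g1 ι) (Zxm μ k S x) Ψ :=
  ex_ac c h.sq (h.Zx k x) Ψ

theorem Sym.cx_odd (h : Sym μ S 1 ε T) (k x : ℝ) {K : Finset ι} (hK : ∀ e ∈ K, ε e = 1)
    {Ψ : (ι → ℝ) → ℝ} (hΨ : ∀ z, Ψ (ac 1 ε z) = -Ψ z) (z : ι → ℝ) :
    H646.cx (g1 ι) K (Zxm μ k S x) Ψ z = 0 :=
  H347.cx_odd h.sq hK (h.Zx k x) hΨ z

theorem Sym.cx_fl (h : Sym μ S 1 ε T) (k x : ℝ) {K : Finset ι} (hK : ∀ e ∈ K, ε e = 1)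
    (Ψ : (ι → ℝ) → ℝ) (z : ι → ℝ) :
    H646.cx (g1 ι) K (Zxm μ k S x) (fun z => Ψ (ac 1 ε z)) z =
      H646.cx (g1 ι) K (Zxm μ k S x) Ψ z :=
  H347.cx_fl h.sq hK (h.Zx k x) Ψ z

/-! ### the weight is admissible -/

lemma lip_glue {F : (ι → ℝ) → ℝ} (hF : Lip F) (K : Finset ι) (z : ι → ℝ) :
    Lip (fun z' => F (glue K z z')) := by
  obtain ⟨B, hB, h⟩ := hF
  refine ⟨B, hB, fun y y' => (h _ _).trans (mul_le_mul_of_nonneg_left ?_ hB)⟩
  rw [pi_norm_le_iff_of_nonneg (norm_nonneg _)]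
  intro e
  by_cases he : e ∈ K
  · simp [glue, he]
  · simp only [Pi.sub_apply, glue_not_mem he]
    exact norm_le_pi_norm (y - y') e

theorem wt (hG : GM μ S M0) (k x : ℝ) : Wt (g1 ι) (Zxm μ k S x) where
  pos := Zxm_pos x
  meas := (hG.cont_Zx k x).measurable
  sec K z := by
    have h := ((lip_glue (hG.lip k) K z).exp_eg x).integrable
    exact h

theorem bm (hG : GM μ S M0) (k : ℝ) {h : Ω → ℝ} (hh : Bm h) : BM (avm μ k S h) := by
  obtain ⟨C, hC, h1⟩ := hh.bd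
  exact ⟨(hG.cont_av k hh).measurable, C, fun z => hG.abs_av_le k hh.meas h1 z⟩

end Vale.Agent.P146.H347
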