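import Vale.Agent.P146.H347.Mod3
import Vale.Agent.P146.H475.Amp2
import Vale.Agent.P146.H196.Gib2
import Vale.Agent.P146.H646.W0

/-!
Instances for the modulated SK system `Co n LB LF`, `Sm b cB cF s η`, `muA (Xs n) lam η c`:

* `gmA` (class `GM` of Gibm), `wtA`, `bmA`;
* `revK : Rev (cP LB LF) (fun S => Kset S BL FL)`, `sitesA : Sites ..` (interface of `H646.W0`);
* `invP_Z`, `invG_Z`: the weight `Z ^ x` is invariant;
* `eq1_av`, `eq2_av`: brackets of equivariant observables are equivariant;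
* `Sg τ r Ψ`: `Ψ` is multiplied by `r` under the gauge transformation `τ`; calculus, `Sg.cx`,
  `Sg.cx_zero`, `Sg.ex_zero`;
* replicas: `symPR`, `symGR` for the product systems, hence the same for `avR`.
-/

open MeasureTheory ProbabilityTheory

namespace Vale.Agent.P146.H347

open Vale.Agent.P157.Lv Vale.Agent.P146.H196 Vale.Agent.P146.H646 Vale.Agent.P146.H475
  Vale.Agent.P146.H816 Vale.Agent.P146.H325

set_option linter.unusedSectionVars false

variable {n : ℕ} {LB LF : Type} [Fintype LB] [DecidableEq LB] [Fintype LF] [DecidableEq LF]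
variable (b : ℝ) (cB : LB → ℝ) (cF : LF → ℝ) (s η : ℝ)

theorem msx (n : ℕ) : MeasurableSingletonClass (Xs n) := by
  have := dmx n
  infer_instance

/-! ### bounds -/

/-- a bound of the energies -/
noncomputable def M0c (b : ℝ) (cB : LB → ℝ) (cF : LF → ℝ) (s η : ℝ) : ℝ :=
  |b| * ∑ l, |cB l| + ∑ l, |cF l| + (1 + η) * |s|

lemma abs_div_sqrt_le (b : ℝ) (n : ℕ) : |b / √n| ≤ |b| := by
  rcases Nat.eq_zero_or_pos n with h | h
  · subst h
    simp
  · rw [abs_div, abs_of_nonneg (Real.sqrt_nonneg _)]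
    refine div_le_self (abs_nonneg _) ?_
    rw [Real.one_le_sqrt]
    exact_mod_cast h

lemma abs_SkS (e : Pair n) (σ : Xs n) : |SkS e σ| = 1 := by
  unfold SkS
  rw [abs_mul, abs_sp, abs_sp, one_mul]

theorem abA (hη : 0 ≤ η) : AB (S0 (n := n) b cB cF) (fun j σ => sp σ j) s η
    (M0c b cB cF s η) := by
  have h1 : 0 ≤ |b| * ∑ l, |cB l| :=
    mul_nonneg (abs_nonneg _) (Finset.sum_nonneg fun _ _ => abs_nonneg _)
  have h2 : 0 ≤ ∑ l, |cF l| := Finset.sum_nonneg fun _ _ => abs_nonneg _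
  have h3 : 0 ≤ (1 + η) * |s| := mul_nonneg (by linarith) (abs_nonneg _)
  unfold M0c
  refine ⟨by linarith, ?_, ?_⟩
  · rintro (⟨p, l⟩ | ⟨i, l⟩) σ
    · have h4 : |b / √n * cB l * SkS p σ| ≤ |b| * ∑ l, |cB l| := by
        rw [abs_mul, abs_SkS, mul_one, abs_mul]
        exact mul_le_mul (abs_div_sqrt_le b n)
          (Finset.single_le_sum (f := fun l => |cB l|) (fun _ _ => abs_nonneg _)
            (Finset.mem_univ l)) (abs_nonneg _) (abs_nonneg _)
      show |b / √n * cB l * SkS p σ| ≤ _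
      linarith
    · have h4 : |cF l * sp σ i| ≤ ∑ l, |cF l| := by
        rw [abs_mul, abs_sp, mul_one]
        exact Finset.single_le_sum (f := fun l => |cF l|) (fun _ _ => abs_nonneg _)
            (Finset.mem_univ l)
      show |cF l * sp σ i| ≤ _
      linarith
  · intro j σ
    rw [abs_sp, mul_one]
    linarith

/-- the class `GM` -/
theorem gmA {lam : ℝ} (hl : 0 < lam) {η : ℝ} (hη : 0 ≤ η) (c : ℝ) :
    GM (muA (Xs n) lam η c) (Sm b cB cF s η) (M0c b cB cF s η) := by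
  have := msx n
  exact gm hl hη (abA b cB cF s η hη)

theorem wtA {lam : ℝ} (hl : 0 < lam) {η : ℝ} (hη : 0 ≤ η) (c x : ℝ) :
    Wt (g1 _) (Zxm (muA (Xs n) lam η c) 1 (Sm b cB cF s η) x) := wt (gmA b cB cF s hl hη c) 1 x

theorem bmA {lam : ℝ} (hl : 0 < lam) {η : ℝ} (hη : 0 ≤ η) (c : ℝ) {h : ℝ × Xs n → ℝ}
    (hh : Bm h) : BM (avm (muA (Xs n) lam η c) 1 (Sm b cB cF s η) h) :=
  bm (gmA b cB cF s hl hη c) 1 hh

lemma measurable_sp (j : Fin n) : Measurable fun w : ℝ × Xs n => sp w.2 j := by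
  have := dmx n
  exact (Measurable.of_discrete (f := fun σ : Xs n => sp σ j)).comp measurable_snd

lemma bm_sp (j : Fin n) : Bm fun w : ℝ × Xs n => sp w.2 j :=
  Bm.of (measurable_sp j) (C := 1) fun w => (abs_sp w.2 j).le

lemma bm_of_al {η : ℝ} (hη : 0 ≤ η) : Bm fun w : ℝ × Xs n => al η w.1 :=
  Bm.of ((measurable_al η).comp measurable_fst) (C := 1 + η) fun w => by
    have := al_mem hη w.1
    rw [abs_le]
    constructor <;> linarith [this.1, this.2]

/-! ### the interface of `H646.W0` -/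

theorem revK (BL : Finset LB) (FL : Finset LF) :
    Rev (cP (n := n) LB LF) (fun S => Kset S BL FL) where
  mem π _ _ h e := cP_memK π h e
  fix π _ h _ he := cP_fixK π h he
  mono _ _ h := Kset_mono h (Finset.Subset.refl _) (Finset.Subset.refl _)

theorem sitesA {lam : ℝ} (hl : 0 < lam) {η : ℝ} (hη : 0 ≤ η) (c : ℝ) :
    Sites (muA (Xs n) lam η c) (Sm b cB cF s η) (cP LB LF) (fun i w => sp w.2 i)
      (fun w => al η w.1) (fun π => π) (fun j w => sp w.2 j) where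
  sym π := ⟨fun w => (w.1, fun i => w.2 (π i)), symP b cB cF s η hl c π, fun _ _ => rfl,
    fun _ => rfl, fun _ _ => rfl⟩
  ms := measurable_sp
  bs i w := (abs_sp w.2 i).le
  ma := (measurable_al η).comp measurable_fst
  ba := (bm_of_al (n := n) hη).bd.imp fun _ h => h.2
  mt := measurable_sp
  bt i w := (abs_sp w.2 i).le

/-! ### invariance of the weight and of the brackets -/

section inv

variable {lam : ℝ} (hl : 0 < lam) (c k x : ℝ)
include hl

theorem invP_Z : InvP (Zxm (muA (Xs n) lam η c) k (Sm b cB cF s η) x) :=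
  fun π z => (symP b cB cF s η hl c π).Zx k x z

theorem invG_Z : InvG (Zxm (muA (Xs n) lam η c) k (Sm b cB cF s η) x) :=
  fun τ z => (symG b cB cF s η hl c τ).Zx k x z

theorem inv_av {f : ℝ × Xs n → ℝ}
    (hf : ∀ (π : Equiv.Perm (Fin n)) w, f (w.1, fun i => w.2 (π i)) = f w) :
    InvP (avm (muA (Xs n) lam η c) k (Sm b cB cF s η) f) := by
  intro π z
  unfold acP
  rw [(symP b cB cF s η hl c π).av]
  simp only [hf]

theorem eq1_av {f : Fin n → ℝ × Xs n → ℝ}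
    (hf : ∀ (π : Equiv.Perm (Fin n)) j w, f j (w.1, fun i => w.2 (π i)) = f (π j) w) :
    Eq1 fun j => avm (muA (Xs n) lam η c) k (Sm b cB cF s η) (f j) := by
  intro π j z
  show avm (muA (Xs n) lam η c) k (Sm b cB cF s η) (f j) (ac (cP LB LF π) (fun _ => 1) z) = _
  rw [(symP b cB cF s η hl c π).av]
  simp only [hf]

theorem eq2_av {f : Fin n → Fin n → ℝ × Xs n → ℝ}
    (hf : ∀ (π : Equiv.Perm (Fin n)) i j w, f i j (w.1, fun i => w.2 (π i)) = f (π i) (π j) w) :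
    Eq2 fun i j => avm (muA (Xs n) lam η c) k (Sm b cB cF s η) (f i j) := by
  intro π i j z
  show avm (muA (Xs n) lam η c) k (Sm b cB cF s η) (f i j) (ac (cP LB LF π) (fun _ => 1) z) = _
  rw [(symP b cB cF s η hl c π).av]
  simp only [hf]

/-- `⟨g(t) σ_j⟩` -/
theorem eq1_sp (g : ℝ → ℝ) :
    Eq1 fun j => avm (muA (Xs n) lam η c) k (Sm b cB cF s η) (fun w => g w.1 * sp w.2 j) :=
  eq1_av b cB cF s η hl c k fun _ _ _ => rfl

/-- `⟨g(t) σ_i σ_j⟩` -/
theorem eq2_sp (g : ℝ → ℝ) :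
    Eq2 fun i j => avm (muA (Xs n) lam η c) k (Sm b cB cF s η)
      (fun w => g w.1 * (sp w.2 i * sp w.2 j)) :=
  eq2_av b cB cF s η hl c k fun _ _ _ _ => rfl

end inv

/-! ### calculus of equivariant families -/

section eqcalc

variable {Ψ Φ : Fin n → (Co n LB LF → ℝ) → ℝ} {Λ Θ : Fin n → Fin n → (Co n LB LF → ℝ) → ℝ}
  {H : (Co n LB LF → ℝ) → ℝ}

lemma Eq1.mul (h : Eq1 Ψ) (h' : Eq1 Φ) : Eq1 fun j z => Ψ j z * Φ j z := fun π j z => by
  show Ψ j (acP π z) * Φ j (acP π z) = _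
  rw [h, h']

lemma Eq1.add (h : Eq1 Ψ) (h' : Eq1 Φ) : Eq1 fun j z => Ψ j z + Φ j z := fun π j z => by
  show Ψ j (acP π z) + Φ j (acP π z) = _
  rw [h, h']

lemma Eq1.sub (h : Eq1 Ψ) (h' : Eq1 Φ) : Eq1 fun j z => Ψ j z - Φ j z := fun π j z => by
  show Ψ j (acP π z) - Φ j (acP π z) = _
  rw [h, h']

lemma Eq1.inv_mul (h : Eq1 Ψ) (hH : InvP H) : Eq1 fun j z => H z * Ψ j z := fun π j z => by
  show H (acP π z) * Ψ j (acP π z) = _
  rw [h, hH]

lemma Eq1.comp (h : Eq1 Ψ) (φ : ℝ → ℝ) : Eq1 fun j z => φ (Ψ j z) := fun π j z => by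
  show φ (Ψ j (acP π z)) = _
  rw [h]

lemma Eq1.prod (h : Eq1 Ψ) (h' : Eq1 Φ) : Eq2 fun i j z => Ψ i z * Φ j z := fun π i j z => by
  show Ψ i (acP π z) * Φ j (acP π z) = _
  rw [h, h']

lemma Eq2.mul (h : Eq2 Λ) (h' : Eq2 Θ) : Eq2 fun i j z => Λ i j z * Θ i j z :=
  fun π i j z => by
    show Λ i j (acP π z) * Θ i j (acP π z) = _
    rw [h, h']

lemma Eq2.add (h : Eq2 Λ) (h' : Eq2 Θ) : Eq2 fun i j z => Λ i j z + Θ i j z :=
  fun π i j z => by
    show Λ i j (acP π z) + Θ i j (acP π z) = _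
    rw [h, h']

lemma Eq2.sub (h : Eq2 Λ) (h' : Eq2 Θ) : Eq2 fun i j z => Λ i j z - Θ i j z :=
  fun π i j z => by
    show Λ i j (acP π z) - Θ i j (acP π z) = _
    rw [h, h']

lemma Eq2.const_mul (a : ℝ) (h : Eq2 Λ) : Eq2 fun i j z => a * Λ i j z :=
  fun π i j z => by
    show a * Λ i j (acP π z) = _
    rw [h]

lemma Eq2.of_fst (h : Eq1 Ψ) : Eq2 fun i (_ : Fin n) z => Ψ i z := fun π i _ z => h π i z

lemma Eq2.of_snd (h : Eq1 Ψ) : Eq2 fun (_ : Fin n) j z => Ψ j z := fun π _ j z => h π j z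

lemma Eq2.diag (h : Eq2 Λ) : Eq1 fun i => Λ i i := fun π i z => h π i i z

lemma Eq2.row_sum (h : Eq2 Λ) : Eq1 fun i z => ∑ j, Λ i j z := fun π i z => by
  show ∑ j, Λ i j (acP π z) = _
  simp only [h π]
  exact Equiv.sum_comp π fun j => Λ (π i) j z

lemma Eq1.sum (h : Eq1 Ψ) : InvP fun z => ∑ j, Ψ j z := fun π z => by
  show ∑ j, Ψ j (acP π z) = _
  simp only [h π]
  exact Equiv.sum_comp π fun j => Ψ j z

end eqcalc

/-! ### signs -/

/-- `Ψ` is multiplied by `r` under the gauge transformation `τ` -/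
def Sg (τ : Xs n) (r : ℝ) (Ψ : (Co n LB LF → ℝ) → ℝ) : Prop :=
  ∀ z, Ψ (ac 1 (eps LB LF τ) z) = r * Ψ z

section sgn

variable {τ : Xs n} {r r' : ℝ} {Ψ Φ : (Co n LB LF → ℝ) → ℝ}

lemma Sg.mul (h : Sg τ r Ψ) (h' : Sg τ r' Φ) : Sg τ (r * r') fun z => Ψ z * Φ z := fun z => by
  show Ψ _ * Φ _ = _
  rw [h, h']
  ring

lemma Sg.add (h : Sg τ r Ψ) (h' : Sg τ r Φ) : Sg τ r fun z => Ψ z + Φ z := fun z => by
  show Ψ _ + Φ _ = _
  rw [h, h']
  ring

lemma Sg.sub (h : Sg τ r Ψ) (h' : Sg τ r Φ) : Sg τ r fun z => Ψ z - Φ z := fun z => by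
  show Ψ _ - Φ _ = _
  rw [h, h']
  ring

lemma Sg.sum {A : Type*} {t : Finset A} {f : A → (Co n LB LF → ℝ) → ℝ}
    (h : ∀ a ∈ t, Sg τ r (f a)) : Sg τ r fun z => ∑ a ∈ t, f a z := fun z => by
  show ∑ a ∈ t, f a _ = _
  rw [Finset.mul_sum]
  exact Finset.sum_congr rfl fun a ha => h a ha z

lemma Sg.const_mul (a : ℝ) (h : Sg τ r Ψ) : Sg τ r fun z => a * Ψ z := fun z => by
  show a * Ψ _ = _
  rw [h]
  ring

lemma Sg.const (a : ℝ) : Sg (LB := LB) (LF := LF) τ 1 fun _ => a := fun _ => (one_mul a).symm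

lemma Sg.comp (h : Sg τ 1 Ψ) (φ : ℝ → ℝ) : Sg τ 1 fun z => φ (Ψ z) := fun z => by
  show φ (Ψ _) = _
  rw [h, one_mul, one_mul]

lemma Sg.sq (h : Sg τ r Ψ) (hr : r * r = 1) : Sg τ 1 fun z => Ψ z ^ 2 := fun z => by
  show Ψ _ ^ 2 = _
  rw [h]
  linear_combination Ψ z ^ 2 * hr

lemma Sg.coord (τ : Xs n) (e : Co n LB LF) : Sg τ (eps LB LF τ e) fun z => z e := fun _ => rfl

lemma cx_cmul {κ : Type} [Fintype κ] [DecidableEq κ] (K : Finset κ) (w Ψ : (κ → ℝ) → ℝ) (r : ℝ)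
    (z : κ → ℝ) : cx (g1 κ) K w (fun z => r * Ψ z) z = r * cx (g1 κ) K w Ψ z := by
  unfold H646.cx
  simp only [mul_left_comm _ r]
  rw [integral_const_mul, mul_div_assoc]

/-- conditional means keep the sign -/
theorem Sg.cx {w : (Co n LB LF → ℝ) → ℝ} (hw : InvG w) (K : Finset (Co n LB LF))
    (h : Sg τ r Ψ) : Sg τ r (cx (g1 _) K w Ψ) := by
  intro z
  have h1 := cx_ac (K := K) (K' := K) 1 (eps_sq (LB := LB) (LF := LF) τ) (fun z => hw τ z)
    (fun e => Iff.rfl) Ψ z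
  rw [← h1]
  have h2 : (fun z => Ψ (ac 1 (eps LB LF τ) z)) = fun z => r * Ψ z := by
    funext z
    exact h z
  rw [h2]
  exact cx_cmul K w Ψ r z

/-- odd under a gauge transformation invisible on `K` -/
theorem Sg.cx_zero {w : (Co n LB LF → ℝ) → ℝ} (hw : InvG w) {K : Finset (Co n LB LF)}
    (hK : ∀ e ∈ K, eps LB LF τ e = 1) (h : Sg τ (-1) Ψ) (z : Co n LB LF → ℝ) :
    H646.cx (g1 _) K w Ψ z = 0 :=
  cx_odd_G hw τ hK (fun z => by rw [h, neg_one_mul]) z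

/-- odd in a hidden site -/
theorem Sg.cx_hid {w : (Co n LB LF → ℝ) → ℝ} (hw : InvG w) {i : Fin n}
    {S : Finset (Fin n)} (hi : i ∉ S) (BL : Finset LB) (FL : Finset LF)
    (h : Sg (fl i) (-1) Ψ) (z : Co n LB LF → ℝ) :
    H646.cx (g1 _) (Kset S BL FL) w Ψ z = 0 :=
  cx_odd_K hw hi (fun z => by rw [h, neg_one_mul]) z

theorem Sg.ex_zero {w : (Co n LB LF → ℝ) → ℝ} (hw : InvG w) (h : Sg τ (-1) Ψ) :
    ex (g1 _) w Ψ = 0 := by
  have h1 := ex_ac 1 (eps_sq (LB := LB) (LF := LF) τ) (fun z => hw τ z) Ψ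
  have h2 : (fun z => Ψ (ac 1 (eps LB LF τ) z)) = fun z => -Ψ z := by
    funext z
    rw [h, neg_one_mul]
  rw [h2] at h1
  unfold ex at h1 ⊢
  simp only [mul_neg, integral_neg, neg_div] at h1
  linarith

variable {lam : ℝ} (hl : 0 < lam) (c k : ℝ)
include hl

/-- brackets -/
theorem sg_av {f : ℝ × Xs n → ℝ} (hf : ∀ w, f (w.1, fun i => w.2 i * τ i) = r * f w) :
    Sg τ r (avm (muA (Xs n) lam η c) k (Sm b cB cF s η) f) := by
  intro z
  rw [(symG b cB cF s η hl c τ).av]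
  simp only [hf]
  exact av_mul _ _ _ r f z

/-- `⟨g(t) σ_j⟩` -/
theorem sg_sp (τ : Xs n) (g : ℝ → ℝ) (j : Fin n) :
    Sg τ (sp τ j) (avm (muA (Xs n) lam η c) k (Sm b cB cF s η) (fun w => g w.1 * sp w.2 j)) :=
  sg_av b cB cF s η hl c k fun w => by
    simp only
    rw [sp_mul]
    ring

/-- `⟨g(t) σ_i σ_j⟩` -/
theorem sg_sp2 (τ : Xs n) (g : ℝ → ℝ) (i j : Fin n) :
    Sg τ (sp τ i * sp τ j) (avm (muA (Xs n) lam η c) k (Sm b cB cF s η)
      (fun w => g w.1 * (sp w.2 i * sp w.2 j))) :=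
  sg_av b cB cF s η hl c k fun w => by
    simp only
    rw [sp_mul, sp_mul]
    ring

/-- `⟨g(t)⟩` -/
theorem sg_one (τ : Xs n) (g : ℝ → ℝ) :
    Sg τ 1 (avm (muA (Xs n) lam η c) k (Sm b cB cF s η) (fun w => g w.1)) :=
  sg_av b cB cF s η hl c k fun _ => (one_mul _).symm

end sgn

/-! ### replicas -/

section rep

variable {ι : Type} [Fintype ι] [DecidableEq ι] {Ω : Type} [MeasurableSpace Ω]
  {μ : Measure Ω} {S : ι → Ω → ℝ} {c : Equiv.Perm ι} {ε : ι → ℝ}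

/-- symmetries of the replicated system -/
theorem Sym.pi {T : Ω → Ω} (h : Sym μ S c ε T) (G : Ω ≃ᵐ Ω) (hG : ⇑G = T) [SigmaFinite μ]
    (R : Type) [Fintype R] :
    Sym (Measure.pi fun _ : R => μ) (SR R S) c ε (fun w a => T (w a)) where
  mp := measurePreserving_pi _ _ fun _ => h.mp
  emb := by
    subst hG
    exact (MeasurableEquiv.piCongrRight fun _ : R => G).measurableEmbedding
  sq := h.sq
  eq e w := by
    unfold SR
    rw [Finset.mul_sum]
    exact Finset.sum_congr rfl fun a _ => h.eq e (w a)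

/-- replicated brackets are equivariant -/
theorem Sym.avR {T : Ω → Ω} (h : Sym μ S c ε T) (G : Ω ≃ᵐ Ω) (hG : ⇑G = T) [SigmaFinite μ]
    (k : ℝ) {R : Type} [Fintype R] (f : (R → Ω) → ℝ) (z : ι → ℝ) :
    H196.avR μ k S R f (ac c ε z) = H196.avR μ k S R (fun w => f fun a => T (w a)) z :=
  (h.pi G hG R).av k f z

end rep

section rep2

variable {lam : ℝ} (hl : 0 < lam) (hη : 0 ≤ η) (c k : ℝ) {R : Type} [Fintype R]
include hl hη

theorem avR_P (π : Equiv.Perm (Fin n)) (f : (R → ℝ × Xs n) → ℝ) (z : Co n LB LF → ℝ) :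
    avR (muA (Xs n) lam η c) k (Sm b cB cF s η) R f (acP π z) =
      avR (muA (Xs n) lam η c) k (Sm b cB cF s η) R
        (fun w => f fun a => ((w a).1, fun i => (w a).2 (π i))) z := by
  have := dmx n
  have := msx n
  have := finite_muA (X := Xs n) hl hη c
  exact (symP b cB cF s η hl c π).avR
    ((MeasurableEquiv.refl ℝ).prodCongr
      ⟨rel π, Measurable.of_discrete, Measurable.of_discrete⟩) rfl k f z

theorem avR_G (τ : Xs n) (f : (R → ℝ × Xs n) → ℝ) (z : Co n LB LF → ℝ) :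
    avR (muA (Xs n) lam η c) k (Sm b cB cF s η) R f (ac 1 (eps LB LF τ) z) =
      avR (muA (Xs n) lam η c) k (Sm b cB cF s η) R
        (fun w => f fun a => ((w a).1, fun i => (w a).2 i * τ i)) z := by
  have := dmx n
  have := msx n
  have := finite_muA (X := Xs n) hl hη c
  exact (symG b cB cF s η hl c τ).avR
    ((MeasurableEquiv.refl ℝ).prodCongr
      ⟨mulE τ, Measurable.of_discrete, Measurable.of_discrete⟩) rfl k f z

theorem sg_avR {τ : Xs n} {r : ℝ} {f : (R → ℝ × Xs n) → ℝ}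
    (hf : ∀ w, f (fun a => ((w a).1, fun i => (w a).2 i * τ i)) = r * f w) :
    Sg τ r (avR (muA (Xs n) lam η c) k (Sm b cB cF s η) R f) := by
  intro z
  rw [avR_G b cB cF s η hl hη c k]
  simp only [hf]
  exact av_mul _ _ _ r f z

theorem eq1_avR {f : Fin n → (R → ℝ × Xs n) → ℝ}
    (hf : ∀ (π : Equiv.Perm (Fin n)) j w,
      f j (fun a => ((w a).1, fun i => (w a).2 (π i))) = f (π j) w) :
    Eq1 fun j => avR (muA (Xs n) lam η c) k (Sm b cB cF s η) R (f j) := by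
  intro π j z
  show avR (muA (Xs n) lam η c) k (Sm b cB cF s η) R (f j) (acP π z) = _
  rw [avR_P b cB cF s η hl hη c k]
  simp only [hf]

theorem eq2_avR {f : Fin n → Fin n → (R → ℝ × Xs n) → ℝ}
    (hf : ∀ (π : Equiv.Perm (Fin n)) i j w,
      f i j (fun a => ((w a).1, fun i => (w a).2 (π i))) = f (π i) (π j) w) :
    Eq2 fun i j => avR (muA (Xs n) lam η c) k (Sm b cB cF s η) R (f i j) := by
  intro π i j z
  show avR (muA (Xs n) lam η c) k (Sm b cB cF s η) R (f i j) (acP π z) = _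
  rw [avR_P b cB cF s η hl hη c k]
  simp only [hf]

end rep2

end Vale.Agent.P146.H347
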