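import Vale.Agent.P146.H347.Mod1
import Vale.Agent.P146.H475.AmpDef
import Vale.Agent.P146.H816.Swap
import Vale.Agent.P146.H325.Sk

/-!
The modulated SK system on coordinates with levels.

* Coordinates `Co n LB LF`: bonds `bd LF p l` with `l : LB`, plain private fields `fd LB i l` with
  `l : LF`, and the modulated private field `gd LB LF j`.
* Energies `Sm b cB cF s η` on `ℝ × Xs n` (thermal variable, spins), measure `muA (Xs n) lam η c`.
* Site permutations `cP LB LF π` and gauge transformations `eps LB LF τ` are symmetries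
  (`symP`, `symG`) in the sense of `H347.Sym`.
-/

open MeasureTheory ProbabilityTheory

namespace Vale.Agent.P146.H347

open Vale.Agent.P157.Lv Vale.Agent.P146.H196 Vale.Agent.P146.H646 Vale.Agent.P146.H475
  Vale.Agent.P146.H816 Vale.Agent.P146.H325

set_option linter.unusedSectionVars false

/-! ### configurations -/

/-- the spin configurations -/
abbrev Xs (n : ℕ) : Type := Fin n → ℤˣ

theorem msu : MeasurableSingletonClass ℤˣ := by
  refine ⟨fun a => ?_⟩
  have h : Measurable (fun u : ℤˣ => (u : ℤ)) := comap_measurable _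
  have : ({a} : Set ℤˣ) = (fun u : ℤˣ => (u : ℤ)) ⁻¹' {(a : ℤ)} := by
    ext u; simp [Units.ext_iff]
  rw [this]
  exact h (measurableSet_singleton _)

theorem dmx (n : ℕ) : DiscreteMeasurableSpace (Xs n) := by
  have := msu
  infer_instance

/-! ### a bijection of the configurations preserves the measure -/

section pres

variable {X : Type} [Fintype X] [MeasurableSpace X] [DiscreteMeasurableSpace X]

lemma mp_count (g : Equiv.Perm X) :
    MeasurePreserving g (Measure.count : Measure X) Measure.count := by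
  refine ⟨Measurable.of_discrete, ?_⟩
  ext s hs
  rw [Measure.map_apply Measurable.of_discrete hs, ← Equiv.image_symm_eq_preimage,
    Measure.count_injective_image g.symm.injective]

lemma mp_muA (g : Equiv.Perm X) {lam : ℝ} (hl : 0 < lam) (η c : ℝ) :
    MeasurePreserving (fun w : ℝ × X => (w.1, g w.2)) (muA X lam η c) (muA X lam η c) := by
  have := isProb_lap hl
  have h0 : MeasurePreserving (fun w : ℝ × X => (w.1, g w.2)) ((lap lam).prod (Measure.count : Measure X))
      ((lap lam).prod Measure.count) := (MeasurePreserving.id (lap lam)).prod (mp_count g)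
  refine ⟨h0.measurable, ?_⟩
  unfold muA
  ext s hs
  rw [Measure.map_apply h0.measurable hs, withDensity_apply _ hs,
    withDensity_apply _ (h0.measurable hs)]
  exact h0.setLIntegral_comp_preimage (f := fun p : ℝ × X =>
    ENNReal.ofReal (Real.exp (-(c / 2 * (al η p.1 ^ 2 - 1))))) hs
    (by
      refine Measurable.ennreal_ofReal (Measurable.exp ?_)
      exact ((((measurable_al η).comp measurable_fst).pow_const 2).sub_const 1 |>.const_mul
        (c / 2)).neg)

lemma emb_muA (g : Equiv.Perm X) : MeasurableEmbedding (fun w : ℝ × X => (w.1, g w.2)) := by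
  let G : X ≃ᵐ X := ⟨g, Measurable.of_discrete, Measurable.of_discrete⟩
  exact ((MeasurableEquiv.refl ℝ).prodCongr G).measurableEmbedding

end pres

/-! ### coordinates and energies -/

section coord

variable {n : ℕ} {LB LF : Type}

/-- plain coordinates: bonds with levels `LB`, private fields with levels `LF` -/
abbrev Kp (n : ℕ) (LB LF : Type) : Type := (Pair n × LB) ⊕ (Fin n × LF)

/-- all the coordinates: the plain ones and the modulated private field -/
abbrev Co (n : ℕ) (LB LF : Type) : Type := Kp n LB LF ⊕ Fin n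

/-- the bond `p` at level `l` -/
abbrev bd (LF : Type) (p : Pair n) (l : LB) : Co n LB LF := Sum.inl (Sum.inl (p, l))

/-- the field of the site `i` at level `l` -/
abbrev fd (LB : Type) (i : Fin n) (l : LF) : Co n LB LF := Sum.inl (Sum.inr (i, l))

/-- the modulated field of the site `i` -/
abbrev gd (LB LF : Type) (i : Fin n) : Co n LB LF := Sum.inr i

/-- the energies of the plain coordinates -/
noncomputable def S0 (b : ℝ) (cB : LB → ℝ) (cF : LF → ℝ) : Kp n LB LF → Xs n → ℝ :=
  Sum.elim (fun e σ => b / √n * cB e.2 * SkS e.1 σ) fun e σ => cF e.2 * sp σ e.1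

@[simp] lemma S0_inl (b : ℝ) (cB : LB → ℝ) (cF : LF → ℝ) (e : Pair n × LB) (σ : Xs n) :
    S0 b cB cF (Sum.inl e) σ = b / √n * cB e.2 * SkS e.1 σ := rfl

@[simp] lemma S0_inr (b : ℝ) (cB : LB → ℝ) (cF : LF → ℝ) (e : Fin n × LF) (σ : Xs n) :
    S0 b cB cF (Sum.inr e) σ = cF e.2 * sp σ e.1 := rfl

/-- all the energies -/
noncomputable abbrev Sm (b : ℝ) (cB : LB → ℝ) (cF : LF → ℝ) (s η : ℝ) :
    Co n LB LF → ℝ × Xs n → ℝ := SA (S0 b cB cF) (fun j σ => sp σ j) s η

/-- action of a permutation of the sites on the coordinates -/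
def cP (LB LF : Type) (π : Equiv.Perm (Fin n)) : Equiv.Perm (Co n LB LF) :=
  Equiv.sumCongr (Equiv.sumCongr (Equiv.prodCongr (pe π) (Equiv.refl LB))
    (Equiv.prodCongr π (Equiv.refl LF))) π

@[simp] lemma cP_bd (π : Equiv.Perm (Fin n)) (p : Pair n) (l : LB) :
    cP LB LF π (bd LF p l) = bd LF (pf π p) l := rfl

@[simp] lemma cP_fd (π : Equiv.Perm (Fin n)) (i : Fin n) (l : LF) :
    cP LB LF π (fd LB i l) = fd LB (π i) l := rfl

@[simp] lemma cP_gd (π : Equiv.Perm (Fin n)) (i : Fin n) :
    cP LB LF π (gd LB LF i) = gd LB LF (π i) := rfl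

/-- action on the positions -/
def acP (π : Equiv.Perm (Fin n)) (z : Co n LB LF → ℝ) : Co n LB LF → ℝ :=
  ac (cP LB LF π) (fun _ => 1) z

lemma acP_apply (π : Equiv.Perm (Fin n)) (z : Co n LB LF → ℝ) (e : Co n LB LF) :
    acP π z e = z (cP LB LF π e) := one_mul _

/-- signs of the coordinates under the gauge transformation `τ` -/
noncomputable def eps (LB LF : Type) (τ : Xs n) : Co n LB LF → ℝ :=
  Sum.elim (Sum.elim (fun e => SkS e.1 τ) fun e => sp τ e.1) fun j => sp τ j

@[simp] lemma eps_bd (τ : Xs n) (p : Pair n) (l : LB) : eps LB LF τ (bd LF p l) = SkS p τ := rfl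

@[simp] lemma eps_fd (τ : Xs n) (i : Fin n) (l : LF) : eps LB LF τ (fd LB i l) = sp τ i := rfl

@[simp] lemma eps_gd (τ : Xs n) (i : Fin n) : eps LB LF τ (gd LB LF i) = sp τ i := rfl

lemma sp_mul (σ τ : Xs n) (i : Fin n) : sp (fun i => σ i * τ i) i = sp σ i * sp τ i := by
  unfold sp
  push_cast
  rfl

lemma SkS_mul (σ τ : Xs n) (e : Pair n) :
    SkS e (fun i => σ i * τ i) = SkS e σ * SkS e τ := by
  unfold SkS
  rw [sp_mul, sp_mul]
  ring

lemma SkS_sq (τ : Xs n) (e : Pair n) : SkS e τ * SkS e τ = 1 := by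
  unfold SkS
  have h1 := sp_mul_self τ e.1.1
  have h2 := sp_mul_self τ e.1.2
  linear_combination (sp τ e.1.2 * sp τ e.1.2) * h1 + h2

lemma eps_sq (τ : Xs n) (e : Co n LB LF) : eps LB LF τ e * eps LB LF τ e = 1 := by
  rcases e with (e | e) | e
  · exact SkS_sq τ e.1
  · exact sp_mul_self τ e.1
  · exact sp_mul_self τ e

/-- multiplication by `τ` -/
def mulE (τ : Xs n) : Equiv.Perm (Xs n) where
  toFun σ := fun i => σ i * τ i
  invFun σ := fun i => σ i * τ i
  left_inv σ := by
    funext i
    show σ i * τ i * τ i = σ i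
    rw [mul_assoc, Int.units_mul_self, mul_one]
  right_inv σ := by
    funext i
    show σ i * τ i * τ i = σ i
    rw [mul_assoc, Int.units_mul_self, mul_one]

/-- the flip of the site `i` -/
def fl (i : Fin n) : Xs n := fun j => if j = i then -1 else 1

lemma sp_fl (i j : Fin n) : sp (fl i) j = if j = i then -1 else 1 := by
  unfold sp fl
  split_ifs <;> simp

lemma sp_fl_self (i : Fin n) : sp (fl i) i = -1 := by rw [sp_fl, if_pos rfl]

lemma sp_fl_ne {i j : Fin n} (h : j ≠ i) : sp (fl i) j = 1 := by rw [sp_fl, if_neg h]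

lemma SkS_fl {i : Fin n} {e : Pair n} (h : e ∉ row i) : SkS e (fl i) = 1 := by
  rw [mem_row, not_or] at h
  unfold SkS
  rw [sp_fl_ne h.1, sp_fl_ne h.2, one_mul]

lemma SkS_fl_row {i : Fin n} {e : Pair n} (h : e ∈ row i) : SkS e (fl i) = -1 := by
  rw [SkS_oth h]
  unfold pr
  rw [sp_fl_self, sp_fl_ne (oth_ne h), mul_one]

/-! ### the symmetries -/

variable (b : ℝ) (cB : LB → ℝ) (cF : LF → ℝ) (s η : ℝ)

lemma Sm_perm (π : Equiv.Perm (Fin n)) (e : Co n LB LF) (w : ℝ × Xs n) :
    Sm b cB cF s η e (w.1, fun i => w.2 (π i)) = 1 * Sm b cB cF s η (cP LB LF π e) w := by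
  rw [one_mul]
  rcases e with (⟨p, l⟩ | ⟨i, l⟩) | j
  · show b / √n * cB l * SkS p (fun i => w.2 (π i)) = b / √n * cB l * SkS (pf π p) w.2
    rw [SkS_pf]
  · rfl
  · rfl

lemma Sm_gauge (τ : Xs n) (e : Co n LB LF) (w : ℝ × Xs n) :
    Sm b cB cF s η e (w.1, fun i => w.2 i * τ i) = eps LB LF τ e * Sm b cB cF s η e w := by
  rcases e with (⟨p, l⟩ | ⟨i, l⟩) | j
  · show b / √n * cB l * SkS p (fun i => w.2 i * τ i) = SkS p τ * (b / √n * cB l * SkS p w.2)
    rw [SkS_mul]
    ring
  · show cF l * sp (fun i => w.2 i * τ i) i = sp τ i * (cF l * sp w.2 i)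
    rw [sp_mul]
    ring
  · show al η w.1 * s * sp (fun i => w.2 i * τ i) j = sp τ j * (al η w.1 * s * sp w.2 j)
    rw [sp_mul]
    ring

/-- permutations of the sites are symmetries -/
theorem symP {lam : ℝ} (hl : 0 < lam) (c : ℝ) (π : Equiv.Perm (Fin n)) :
    Sym (muA (Xs n) lam η c) (Sm b cB cF s η) (cP LB LF π) (fun _ => 1)
      (fun w => (w.1, fun i => w.2 (π i))) where
  mp := by
    have := dmx n
    exact mp_muA (rel π) hl η c
  emb := by
    have := dmx n
    exact emb_muA (rel π)
  sq _ := one_mul 1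
  eq e w := Sm_perm b cB cF s η π e w

/-- gauge transformations are symmetries -/
theorem symG {lam : ℝ} (hl : 0 < lam) (c : ℝ) (τ : Xs n) :
    Sym (muA (Xs n) lam η c) (Sm b cB cF s η) 1 (eps LB LF τ)
      (fun w => (w.1, fun i => w.2 i * τ i)) where
  mp := by
    have := dmx n
    exact mp_muA (mulE τ) hl η c
  emb := by
    have := dmx n
    exact emb_muA (mulE τ)
  sq e := eps_sq τ e
  eq e w := Sm_gauge b cB cF s η τ e w

end coord

end Vale.Agent.P146.H347
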