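import Vale.Agent.P146.H347.ModU
import Vale.Agent.P146.H347.Mod6
import Vale.Agent.P146.H980.Mom

/-!
The root law in the ensemble `U`; two copies of the root law with the amplitudes; moments of the
overlap and of a row which may contain modulated levels.

* general: `int_two` : two copies of the root law (as a measure, `H980.r1l`) and functions of the
  configuration; `ro_le` : the moments of the kernel of a row;
* `rU ν b cB cF a x K z : Xs n → ℝ`, `cx_rU`, `mo_two_cxU`, `mo_one_cxU`, `mo_four_cxU`,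
  `amp_sq_leU`;
* `q2_U_le`, `q4_U_le`, `r2_U_le`, `r4_U_le` : the second and the fourth moment of a row.
-/

open MeasureTheory ProbabilityTheory

namespace Vale.Agent.P146.H347.U

open Vale.Agent.P157.Lv Vale.Agent.P146.H196 Vale.Agent.P146.H646 Vale.Agent.P146.H475
  Vale.Agent.P146.H816 Vale.Agent.P146.H325 Vale.Agent.P146.H347 Vale.Agent.P146.H281.U

set_option linter.unusedSectionVars false

/-! ### two copies of the root law -/

section gen

variable {ι : Type} [Fintype ι] [DecidableEq ι] {Ω : Type} [MeasurableSpace Ω] {X : Type}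
  [Fintype X] [DecidableEq X] [MeasurableSpace X] [DiscreteMeasurableSpace X]
  {μ : Measure Ω} {S : ι → Ω → ℝ} {M0 : ℝ} {cf : Ω → X}

lemma bm_cf (hc : Measurable cf) (f : X → ℝ) : Bm fun ω => f (cf ω) := by
  refine Bm.of ((Measurable.of_discrete (f := f)).comp hc) (C := ∑ σ, |f σ|) fun ω => ?_
  exact Finset.single_le_sum (f := fun σ => |f σ|) (fun _ _ => abs_nonneg _)
    (Finset.mem_univ (cf ω))

/-- one copy -/
theorem int_one (hG : GM μ S M0) (k x : ℝ) (K : Finset ι) (hc : Measurable cf) (f : X → ℝ)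
    (z : ι → ℝ) :
    ∫ ω, f (cf ω) ∂(H980.r1l μ k x S K z) = ∑ σ, H347.rt μ k S (Zxm μ k S x) cf K z σ * f σ := by
  rw [H980.int_r1l hG k x K z (bm_cf hc f)]
  exact cx_rt hG (hG.wt k x) k hc f z

/-- two copies -/
theorem int_two (hG : GM μ S M0) (k x : ℝ) (K : Finset ι) (hc : Measurable cf) (F : X → X → ℝ)
    (z : ι → ℝ) :
    ∫ p : Ω × Ω, F (cf p.1) (cf p.2) ∂((H980.r1l μ k x S K z).prod (H980.r1l μ k x S K z)) =
      E2 (H347.rt μ k S (Zxm μ k S x) cf K z) F := by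
  have hp := H980.r1l_prob hG k x K z
  have hb : Integrable (fun p : Ω × Ω => F (cf p.1) (cf p.2))
      ((H980.r1l μ k x S K z).prod (H980.r1l μ k x S K z)) := by
    refine Integrable.of_bound (C := ∑ q : X × X, |F q.1 q.2|) ?_
      (Filter.Eventually.of_forall fun p => ?_)
    · exact ((Measurable.of_discrete (f := fun q : X × X => F q.1 q.2)).comp
        ((hc.comp measurable_fst).prodMk (hc.comp measurable_snd))).aestronglyMeasurable
    · rw [Real.norm_eq_abs]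
      exact Finset.single_le_sum (f := fun q : X × X => |F q.1 q.2|) (fun _ _ => abs_nonneg _)
        (Finset.mem_univ (cf p.1, cf p.2))
  rw [integral_prod _ hb]
  have h1 : ∀ ω : Ω, ∫ ω', F (cf ω) (cf ω') ∂(H980.r1l μ k x S K z) =
      ∑ σ', H347.rt μ k S (Zxm μ k S x) cf K z σ' * F (cf ω) σ' := fun ω =>
    int_one hG k x K hc (fun σ' => F (cf ω) σ') z
  simp only [h1]
  rw [int_one hG k x K hc (fun σ => ∑ σ', H347.rt μ k S (Zxm μ k S x) cf K z σ' * F σ σ') z]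
  unfold E2
  refine Finset.sum_congr rfl fun σ _ => ?_
  rw [Finset.mul_sum]
  refine Finset.sum_congr rfl fun σ' _ => ?_
  ring

/-- the moments of the kernel of a row, from a bound of the kernel -/
theorem ro_le (hG : GM μ S M0) (k x : ℝ) (K Rr : Finset ι) (hc : Measurable cf)
    {F : X → X → ℝ} (hF : ∀ ω ω', |H980.Gk (H980.Sr Rr k S) (ω, ω')| ≤ F (cf ω) (cf ω'))
    (j : ℕ) (z : ι → ℝ) :
    H980.ro μ k x S K Rr j z ≤
      E2 (H347.rt μ k S (Zxm μ k S x) cf K z) (fun σ σ' => F σ σ' ^ j) := by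
  have hp := H980.r1l_prob hG k x K z
  rw [← int_two hG k x K hc (fun σ σ' => F σ σ' ^ j) z]
  unfold H980.ro H980.rk
  refine integral_mono (H980.bq_G hG k Rr j).integrable ?_ fun p => ?_
  · refine Integrable.of_bound (C := ∑ q : X × X, |F q.1 q.2 ^ j|) ?_
      (Filter.Eventually.of_forall fun p => ?_)
    · exact ((Measurable.of_discrete (f := fun q : X × X => F q.1 q.2 ^ j)).comp
        ((hc.comp measurable_fst).prodMk (hc.comp measurable_snd))).aestronglyMeasurable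
    · rw [Real.norm_eq_abs]
      exact Finset.single_le_sum (f := fun q : X × X => |F q.1 q.2 ^ j|)
        (fun _ _ => abs_nonneg _) (Finset.mem_univ (cf p.1, cf p.2))
  · exact pow_le_pow_left₀ (abs_nonneg _) (hF p.1 p.2) j

end gen

/-! ### the ensemble `U` -/

section sk

variable {Th : Type} [MeasurableSpace Th] {n : ℕ} {LB LF : Type} [Fintype LB] [DecidableEq LB]
  [Fintype LF] [DecidableEq LF]
variable {ν : Measure Th} (b : ℝ) (cB : LB → ℝ) (cF : LF → ℝ)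

/-- the law of the spins given the revealed coordinates -/
noncomputable abbrev rU (ν : Measure Th) (b : ℝ) (cB : LB → ℝ) (cF : LF → ℝ)
    (a : LF → Th → ℝ) (x : ℝ) (K : Finset (Co n LB LF)) (z : Co n LB LF → ℝ) : Xs n → ℝ :=
  H347.rt (muU ν n) 1 (SU b cB cF a) (Zxm (muU ν n) 1 (SU b cB cF a) x) Prod.snd K z

variable (hν : IsFiniteMeasure ν) (h0 : ν ≠ 0) {a : LF → Th → ℝ} {η : ℝ} (hA : AmU a η)
  (x : ℝ)
include hν h0 hA

lemma rU_nonneg (K : Finset (Co n LB LF)) (z : Co n LB LF → ℝ) (σ : Xs n) :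
    0 ≤ rU ν b cB cF a x K z σ := by
  have := dmx n
  exact rt_nonneg (gmU b cB cF η hν h0 hA) (wtU b cB cF hν h0 hA x) 1 measurable_snd z σ

lemma rU_sum (K : Finset (Co n LB LF)) (z : Co n LB LF → ℝ) :
    ∑ σ, rU ν b cB cF a x K z σ = 1 := by
  have := dmx n
  exact rt_sum (gmU b cB cF η hν h0 hA) (wtU b cB cF hν h0 hA x) 1 measurable_snd z

/-- conditional means of functions of the spins -/
theorem cx_rU (K : Finset (Co n LB LF)) (f : Xs n → ℝ) (z : Co n LB LF → ℝ) :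
    cx (g1 _) K (Zxm (muU ν n) 1 (SU b cB cF a) x)
      (avm (muU ν n) 1 (SU b cB cF a) (fun w => f w.2)) z =
      ∑ σ, rU ν b cB cF a x K z σ * f σ := by
  have := dmx n
  exact cx_rt (gmU b cB cF η hν h0 hA) (wtU b cB cF hν h0 hA x) 1 measurable_snd f z

/-- second moments: `CC` -/
theorem mo_two_cxU (K : Finset (Co n LB LF)) (S : Finset (Fin n)) (z : Co n LB LF → ℝ) :
    ∑ i ∈ S, ∑ j ∈ S, cx (g1 _) K (Zxm (muU ν n) 1 (SU b cB cF a) x)
      (avm (muU ν n) 1 (SU b cB cF a) (fun w => sp w.2 i * sp w.2 j)) z ^ 2 =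
      mo S 2 (rU ν b cB cF a x K z) := by
  rw [← mo_two]
  refine Finset.sum_congr rfl fun i _ => Finset.sum_congr rfl fun j _ => ?_
  rw [cx_rU b cB cF hν h0 hA x K (fun σ => sp σ i * sp σ j)]

theorem mo_one_cxU (K : Finset (Co n LB LF)) (S : Finset (Fin n)) (z : Co n LB LF → ℝ) :
    ∑ i ∈ S, cx (g1 _) K (Zxm (muU ν n) 1 (SU b cB cF a) x)
      (avm (muU ν n) 1 (SU b cB cF a) (fun w => sp w.2 i)) z ^ 2 =
      mo S 1 (rU ν b cB cF a x K z) := by
  rw [← mo_one]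
  refine Finset.sum_congr rfl fun i _ => ?_
  rw [cx_rU b cB cF hν h0 hA x K (fun σ => sp σ i)]

theorem mo_four_cxU (K : Finset (Co n LB LF)) (S : Finset (Fin n)) (z : Co n LB LF → ℝ) :
    ∑ i ∈ S, ∑ j ∈ S, ∑ k ∈ S, ∑ l ∈ S,
      cx (g1 _) K (Zxm (muU ν n) 1 (SU b cB cF a) x)
      (avm (muU ν n) 1 (SU b cB cF a)
        (fun w => sp w.2 i * sp w.2 j * sp w.2 k * sp w.2 l)) z ^ 2 =
      mo S 4 (rU ν b cB cF a x K z) := by
  rw [← mo_four]
  refine Finset.sum_congr rfl fun i _ => Finset.sum_congr rfl fun j _ =>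
    Finset.sum_congr rfl fun k _ => Finset.sum_congr rfl fun l _ => ?_
  rw [cx_rU b cB cF hν h0 hA x K (fun σ => sp σ i * sp σ j * sp σ k * sp σ l)]

/-- first moments with a bounded factor, `|h| ≤ C`: `∑_{j ∈ S} (cx ⟨h σ_j⟩)^2 ≤ C^2 mo2^(1/2)` -/
theorem amp_sq_leU (K : Finset (Co n LB LF)) (S : Finset (Fin n)) {h : Th × Xs n → ℝ}
    (hh : Bm h) {C : ℝ} (hC : ∀ ω, |h ω| ≤ C) (hC0 : 0 ≤ C) (z : Co n LB LF → ℝ) :
    ∑ j ∈ S, cx (g1 _) K (Zxm (muU ν n) 1 (SU b cB cF a) x)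
      (avm (muU ν n) 1 (SU b cB cF a) (fun w => h w * sp w.2 j)) z ^ 2 ≤
      C ^ 2 * √(mo S 2 (rU ν b cB cF a x K z)) := by
  have := dmx n
  have hG := gmU (n := n) b cB cF η hν h0 hA
  have hw := wtU (n := n) b cB cF hν h0 hA x
  have e : ∀ j, cx (g1 _) K (Zxm (muU ν n) 1 (SU b cB cF a) x)
      (avm (muU ν n) 1 (SU b cB cF a) (fun w => h w * sp w.2 j)) z =
      ∑ σ, pz (muU ν n) 1 (SU b cB cF a)
        (Zxm (muU ν n) 1 (SU b cB cF a) x) Prod.snd K h z σ * sp σ j := fun j =>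
    cx_fin hG hw 1 measurable_snd hh (fun σ => sp σ j) z
  simp only [e]
  exact sum_sq_le S (rU_nonneg b cB cF hν h0 hA x K z) (rU_sum b cB cF hν h0 hA x K z) hC0
    (fun σ => abs_pz_le hG hw 1 measurable_snd hh hC z σ) (fun j σ => sp σ j)

/-- second moments with a bounded factor: `∑_{i,j ∈ S} (cx ⟨h σ_i σ_j⟩)^2 ≤ C^2 mo4^(1/2)` -/
theorem amp_sq_le2U (K : Finset (Co n LB LF)) (S : Finset (Fin n)) {h : Th × Xs n → ℝ}
    (hh : Bm h) {C : ℝ} (hC : ∀ ω, |h ω| ≤ C) (hC0 : 0 ≤ C) (z : Co n LB LF → ℝ) :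
    ∑ i ∈ S, ∑ j ∈ S, cx (g1 _) K (Zxm (muU ν n) 1 (SU b cB cF a) x)
      (avm (muU ν n) 1 (SU b cB cF a) (fun w => h w * (sp w.2 i * sp w.2 j))) z ^ 2 ≤
      C ^ 2 * mo S 2 (rU ν b cB cF a x K z) := by
  have := dmx n
  have hG := gmU (n := n) b cB cF η hν h0 hA
  have hw := wtU (n := n) b cB cF hν h0 hA x
  have e : ∀ i j, cx (g1 _) K (Zxm (muU ν n) 1 (SU b cB cF a) x)
      (avm (muU ν n) 1 (SU b cB cF a) (fun w => h w * (sp w.2 i * sp w.2 j))) z =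
      ∑ σ, pz (muU ν n) 1 (SU b cB cF a)
        (Zxm (muU ν n) 1 (SU b cB cF a) x) Prod.snd K h z σ * (sp σ i * sp σ j) := fun i j =>
    cx_fin hG hw 1 measurable_snd hh (fun σ => sp σ i * sp σ j) z
  simp only [e]
  have h1 := sum_sq_mean (S ×ˢ S) (pz (muU ν n) 1 (SU b cB cF a)
    (Zxm (muU ν n) 1 (SU b cB cF a) x) Prod.snd K h z) (fun q σ => sp σ q.1 * sp σ q.2)
  rw [Finset.sum_product] at h1
  rw [h1]
  unfold mo E2
  rw [Finset.mul_sum]
  refine Finset.sum_le_sum fun σ _ => ?_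
  rw [Finset.mul_sum]
  refine Finset.sum_le_sum fun σ' _ => ?_
  have h2 : ∑ q ∈ S ×ˢ S, sp σ q.1 * sp σ q.2 * (sp σ' q.1 * sp σ' q.2) = ov S σ σ' ^ 2 := by
    unfold ov
    rw [sq, Finset.sum_mul_sum, Finset.sum_product]
    refine Finset.sum_congr rfl fun i _ => Finset.sum_congr rfl fun j _ => ?_
    ring
  simp only [h2]
  rw [← mul_assoc]
  refine mul_le_mul_of_nonneg_right ?_ (sq_nonneg _)
  have q1 := abs_pz_le (K := K) hG hw 1 measurable_snd hh hC z σ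
  have q2 := abs_pz_le (K := K) hG hw 1 measurable_snd hh hC z σ'
  calc _ ≤ |pz (muU ν n) 1 (SU b cB cF a) (Zxm (muU ν n) 1 (SU b cB cF a) x) Prod.snd K h z σ| *
        |pz (muU ν n) 1 (SU b cB cF a) (Zxm (muU ν n) 1 (SU b cB cF a) x) Prod.snd K h z σ'| := by
        rw [← abs_mul]; exact le_abs_self _
    _ ≤ C * rU ν b cB cF a x K z σ * (C * rU ν b cB cF a x K z σ') :=
        mul_le_mul q1 q2 (abs_nonneg _)
          (mul_nonneg hC0 (rU_nonneg b cB cF hν h0 hA x K z σ))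
    _ = C ^ 2 * (rU ν b cB cF a x K z σ * rU ν b cB cF a x K z σ') := by ring

omit hν h0 in
/-- the kernel of the row -/
lemma Gk_U_le {i : Fin n} {S : Finset (Fin n)} (hi : i ∉ S) (BL : Finset LB) (FL : Finset LF)
    (w w' : Th × Xs n) :
    |H980.Gk (H980.Sr (Rw i S BL FL) 1 (SU b cB cF a)) (w, w')| ≤
      b ^ 2 / n * (∑ l ∈ BL, cB l ^ 2) * |ov S w.2 w'.2| +
        (1 + η) ^ 2 * ∑ l ∈ FL, cF l ^ 2 := by
  have e : H980.Gk (H980.Sr (Rw i S BL FL) 1 (SU b cB cF a)) (w, w') =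
      ∑ e ∈ Rw i S BL FL, SU b cB cF a e w * SU b cB cF a e w' := by
    unfold H980.Gk H980.Sr
    simp only [one_mul]
    rw [← Finset.sum_subset (Finset.subset_univ (Rw i S BL FL)) fun e _ he => by
      rw [if_neg he, zero_mul]]
    exact Finset.sum_congr rfl fun e he => by rw [if_pos he, if_pos he]
  rw [e, sum_Rw_SU b cB cF a hi, abs_mul, abs_mul, abs_one_sp, abs_one_sp, one_mul, one_mul]
  refine (abs_add_le _ _).trans (add_le_add ?_ ?_)
  · have h1 : (0 : ℝ) ≤ b ^ 2 / n * ∑ l ∈ BL, cB l ^ 2 := by positivity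
    rw [abs_mul, abs_of_nonneg h1]
    exact le_of_eq rfl
  · refine (Finset.abs_sum_le_sum_abs _ _).trans ?_
    rw [Finset.mul_sum]
    refine Finset.sum_le_sum fun l _ => ?_
    rw [abs_mul, abs_mul, abs_of_nonneg (sq_nonneg (cF l)), mul_comm]
    refine mul_le_mul_of_nonneg_right ?_ (sq_nonneg _)
    rw [sq]
    exact mul_le_mul (hA.abs l _) (hA.abs l _) (abs_nonneg _) (by linarith [hA.nn])

/-- **the second moment of a row** (any revealed set `K`, the row may contain modulated levels) -/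
theorem q2_U_le (K : Finset (Co n LB LF)) {i : Fin n} {S : Finset (Fin n)} (hi : i ∉ S)
    (BL : Finset LB) (FL : Finset LF) (z : Co n LB LF → ℝ) :
    H980.q2 (muU ν n) 1 x (SU b cB cF a) K (Rw i S BL FL) z ≤
      2 * (b ^ 2 / n * (∑ l ∈ BL, cB l ^ 2)) ^ 2 * mo S 2 (rU ν b cB cF a x K z) +
        2 * ((1 + η) ^ 2 * ∑ l ∈ FL, cF l ^ 2) ^ 2 := by
  have := dmx n
  have hG := gmU (n := n) b cB cF η hν h0 hA
  rw [← H980.ro2_eq hG]
  refine (ro_le hG 1 x K (Rw i S BL FL) measurable_snd (F := fun σ σ' =>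
    b ^ 2 / n * (∑ l ∈ BL, cB l ^ 2) * |ov S σ σ'| + (1 + η) ^ 2 * ∑ l ∈ FL, cF l ^ 2)
    (fun w w' => Gk_U_le b cB cF hA hi BL FL w w') 2 z).trans ?_
  set τ := b ^ 2 / n * (∑ l ∈ BL, cB l ^ 2)
  set v := (1 + η) ^ 2 * ∑ l ∈ FL, cF l ^ 2
  have e : 2 * τ ^ 2 * mo S 2 (rU ν b cB cF a x K z) + 2 * v ^ 2 =
      E2 (rU ν b cB cF a x K z) (fun σ σ' => 2 * τ ^ 2 * ov S σ σ' ^ 2 + 2 * v ^ 2 * 1) := by
    rw [E2_add, E2_cmul, E2_cmul, E2_one (rU_sum b cB cF hν h0 hA x K z)]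
    unfold mo
    ring
  rw [e]
  refine E2_mono (rU_nonneg b cB cF hν h0 hA x K z) fun σ σ' => ?_
  have h1 := sq_abs (ov S σ σ')
  nlinarith [sq_nonneg (τ * |ov S σ σ'| - v)]

/-- **the fourth moment of a row** -/
theorem q4_U_le (K : Finset (Co n LB LF)) {i : Fin n} {S : Finset (Fin n)} (hi : i ∉ S)
    (BL : Finset LB) (FL : Finset LF) (z : Co n LB LF → ℝ) :
    H980.q4 (muU ν n) 1 x (SU b cB cF a) K (Rw i S BL FL) z ≤
      8 * (b ^ 2 / n * (∑ l ∈ BL, cB l ^ 2)) ^ 4 * mo S 4 (rU ν b cB cF a x K z) +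
        8 * ((1 + η) ^ 2 * ∑ l ∈ FL, cF l ^ 2) ^ 4 := by
  have := dmx n
  have hG := gmU (n := n) b cB cF η hν h0 hA
  rw [← H980.ro4_eq hG]
  refine (ro_le hG 1 x K (Rw i S BL FL) measurable_snd (F := fun σ σ' =>
    b ^ 2 / n * (∑ l ∈ BL, cB l ^ 2) * |ov S σ σ'| + (1 + η) ^ 2 * ∑ l ∈ FL, cF l ^ 2)
    (fun w w' => Gk_U_le b cB cF hA hi BL FL w w') 4 z).trans ?_
  set τ := b ^ 2 / n * (∑ l ∈ BL, cB l ^ 2)
  set v := (1 + η) ^ 2 * ∑ l ∈ FL, cF l ^ 2
  have e : 8 * τ ^ 4 * mo S 4 (rU ν b cB cF a x K z) + 8 * v ^ 4 =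
      E2 (rU ν b cB cF a x K z) (fun σ σ' => 8 * τ ^ 4 * ov S σ σ' ^ 4 + 8 * v ^ 4 * 1) := by
    rw [E2_add, E2_cmul, E2_cmul, E2_one (rU_sum b cB cF hν h0 hA x K z)]
    unfold mo
    ring
  rw [e]
  refine E2_mono (rU_nonneg b cB cF hν h0 hA x K z) fun σ σ' => ?_
  have h1 : ov S σ σ' ^ 4 = |ov S σ σ'| ^ 4 := by
    rw [show (4 : ℕ) = 2 * 2 by rfl, pow_mul, pow_mul, sq_abs]
  rw [h1]
  have h2 : (τ * |ov S σ σ'| + v) ^ 2 ≤ 2 * (τ * |ov S σ σ'|) ^ 2 + 2 * v ^ 2 := by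
    nlinarith [sq_nonneg (τ * |ov S σ σ'| - v)]
  have h3 : (τ * |ov S σ σ'| + v) ^ 4 = ((τ * |ov S σ σ'| + v) ^ 2) ^ 2 := by ring
  rw [h3]
  have h4 : ((τ * |ov S σ σ'| + v) ^ 2) ^ 2 ≤ (2 * (τ * |ov S σ σ'|) ^ 2 + 2 * v ^ 2) ^ 2 :=
    pow_le_pow_left₀ (sq_nonneg _) h2 2
  refine h4.trans ?_
  nlinarith [sq_nonneg ((τ * |ov S σ σ'|) ^ 2 - v ^ 2)]

omit hν h0 hA in
/-- the second moment of `H980` bounds the sum over the row -/
lemma q2_row (a : LF → Th → ℝ) (R : Finset (Co n LB LF)) (K : Finset (Co n LB LF))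
    (z : Co n LB LF → ℝ) :
    ∑ e ∈ R, ∑ f ∈ R, cx (g1 _) K (Zxm (muU ν n) 1 (SU b cB cF a) x)
      (avm (muU ν n) 1 (SU b cB cF a)
        (fun w => SU b cB cF a e w * SU b cB cF a f w)) z ^ 2 ≤
    H980.q2 (muU ν n) 1 x (SU b cB cF a) K R z := by
  have e1 : ∀ e ∈ R, ∀ f ∈ R, cx (g1 _) K (Zxm (muU ν n) 1 (SU b cB cF a) x)
      (avm (muU ν n) 1 (SU b cB cF a)
        (fun w => SU b cB cF a e w * SU b cB cF a f w)) z ^ 2 =
      cx (g1 _) K (Zxm (muU ν n) 1 (SU b cB cF a) x)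
      (avm (muU ν n) 1 (SU b cB cF a)
        (fun w => H980.Sr R 1 (SU b cB cF a) e w * H980.Sr R 1 (SU b cB cF a) f w)) z ^ 2 := by
    intro e he f hf
    unfold H980.Sr
    simp only [if_pos he, if_pos hf, one_mul]
  rw [Finset.sum_congr rfl fun e he => Finset.sum_congr rfl fun f hf => e1 e he f hf]
  refine (Finset.sum_le_sum fun e _ => Finset.sum_le_sum_of_subset_of_nonneg
    (Finset.subset_univ R) fun f _ _ => sq_nonneg _).trans ?_
  exact Finset.sum_le_sum_of_subset_of_nonneg (Finset.subset_univ R)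
    fun e _ _ => Finset.sum_nonneg fun f _ => sq_nonneg _

/-- the second moment of a row, as a sum over the row -/
theorem r2_U_le (K : Finset (Co n LB LF)) {i : Fin n} {S : Finset (Fin n)} (hi : i ∉ S)
    (BL : Finset LB) (FL : Finset LF) (z : Co n LB LF → ℝ) :
    ∑ e ∈ Rw i S BL FL, ∑ f ∈ Rw i S BL FL,
      cx (g1 _) K (Zxm (muU ν n) 1 (SU b cB cF a) x)
      (avm (muU ν n) 1 (SU b cB cF a)
        (fun w => SU b cB cF a e w * SU b cB cF a f w)) z ^ 2 ≤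
    2 * (b ^ 2 / n * (∑ l ∈ BL, cB l ^ 2)) ^ 2 * mo S 2 (rU ν b cB cF a x K z) +
      2 * ((1 + η) ^ 2 * ∑ l ∈ FL, cF l ^ 2) ^ 2 :=
  (q2_row b cB cF x a _ K z).trans (q2_U_le b cB cF hν h0 hA x K hi BL FL z)

end sk

end Vale.Agent.P146.H347.U
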